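import Vale.Agent.P281.Bdl.B1

/-!
# P281: sections of the base with powers pulled back give sections above
-/

open scoped Manifold ContDiff Topology
open Set Filter Vale.Agent.P281

namespace Vale.Agent.P281.MF

universe u

theorem dif_pow {E : Type} [NormedAddCommGroup E] [NormedSpace ℂ E] {Y : Type u}
    [TopologicalSpace Y] [ChartedSpace E Y] [IsManifold 𝓘(ℂ, E) ω Y] {g : Y → ℂ} {y : Y}
    (hg : HolV E g y) (q : ℕ) :
    dif E (fun w => g w ^ q) y = ((q : ℂ) * g y ^ (q - 1)) • dif E g y := by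
  have h3 := dV_comp_contDiff (G := fun s : ℂ => s ^ q)
    (v := g) (x := y) (contDiff_id.pow q).contDiffAt hg
  rw [dif_eq_dV, h3]
  refine ContinuousLinearMap.ext fun η => ?_
  simp only [ContinuousLinearMap.comp_apply, smul_apply]
  have h4 : HasDerivAt (fun s : ℂ => s ^ q) ((q : ℂ) * g y ^ (q - 1)) (g y) :=
    hasDerivAt_pow q _
  rw [h4.hasFDerivAt.fderiv, ContinuousLinearMap.toSpanSingleton_apply, smul_eq_mul,
    smul_eq_mul, mul_comm]
  rfl

theorem kodGE_up {E E' : Type} [NormedAddCommGroup E] [NormedSpace ℂ E] [FiniteDimensional ℂ E]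
    [NormedAddCommGroup E'] [NormedSpace ℂ E'] [FiniteDimensional ℂ E'] {X Y : Type u}
    [TopologicalSpace X] [ChartedSpace E X] [IsManifold 𝓘(ℂ, E) ω X] [TopologicalSpace Y]
    [ChartedSpace E' Y] [IsManifold 𝓘(ℂ, E') ω Y] {f : X → Y} (hf : ∀ x, HolM E E' f x)
    (hsurj : Function.Surjective f) (hds : Dense {x | Function.Surjective (dM E E' f x)})
    (hdo : IsOpen {x | Function.Surjective (dM E E' f x)})
    {Δ : Set X → ℝ} (hfin : {D | Δ D ≠ 0}.Finite) (hpr : ∀ D, Δ D ≠ 0 → IsPrimeDivisor E D)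
    {B : Set Y → ℝ} (hB : ∀ G, B G ≠ 0 → IsPrimeDivisor E' G)
    {q : ℕ} (hq : 0 < q) {K₀ : Set X → ℕ} (hK₀ : ∀ D, (K₀ D : ℝ) = q * Δ D) {Jf : X → ℂ}
    (hJ : ∀ z, Function.Surjective (dM E E' f z) → Jf z ≠ 0)
    (hmain : ∀ (m : ℕ) (k : Set Y → ℕ) (t : Y → ℂ), 0 < m →
      (∀ G, (k G : ℝ) = (m * q : ℕ) * B G) →
      IsSection E' (fun (G : Set Y) z g => IsLocalEq E' G g z) (m * q) k t →
      ∃ σ : X → ℂ, IsSection E (fun (D : Set X) z g => IsLocalEq E D g z) (m * q)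
        (fun D => m * K₀ D) σ ∧
        ∀ z, (∀ G, k G ≠ 0 → f z ∉ G) → σ z = t (f z) * Jf z ^ m)
    {j : ℕ} (hj : KodGE E' (fun (G : Set Y) z g => IsLocalEq E' G g z) B j) :
    KodGE E (fun (D : Set X) z g => IsLocalEq E D g z) Δ j := by
  classical
  obtain ⟨m, k, t, y₁, hm, hk, ht, hy₁, ht0, hind⟩ := hj
  obtain ⟨y₂, hy₂⟩ := good_point ht hy₁ ht0 hind
  have hkB : ∀ G, k G ≠ 0 → IsPrimeDivisor E' G := by
    intro G hG
    refine hB G fun h0 => hG ?_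
    have h1 := hk G
    rw [h0, mul_zero] at h1
    exact_mod_cast h1
  have hkfin : {G | k G ≠ 0}.Finite := by
    obtain ⟨T, g, a, hT, -⟩ := ht 0 y₁
    exact (T.finite_toSet).subset fun G hG => hT G hG
  have hdY := dense_compl_finite hkfin (fun G hG => (hkB G hG).1) (fun G hG => by
    rw [dense_iff_inter_open]
    intro U hU hUne
    obtain ⟨x, hxU, hxD⟩ := IsLocalEq.exists_notMem (hkB G hG).2.1 hU hUne
    exact ⟨x, hxU, hxD⟩)
  have hdX := dense_compl_finite hfin (fun D hD => (hpr D hD).1) (fun D hD => by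
    rw [dense_iff_inter_open]
    intro U hU hUne
    obtain ⟨x, hxU, hxD⟩ := IsLocalEq.exists_notMem (hpr D hD).2.1 hU hUne
    exact ⟨x, hxU, hxD⟩)
  have hcont : Continuous f := continuous_iff_continuousAt.2 fun x => (hf x).continuousAt
  -- an open set below
  obtain ⟨V, hV1, hV2, hV3⟩ := eventually_nhds_iff.1 hy₂
  have hVne : (V ∩ {y | ∀ G ∈ {G | k G ≠ 0}, y ∉ G}).Nonempty :=
    hdY.2.inter_open_nonempty _ hV2 ⟨y₂, hV3⟩
  set O : Set Y := V ∩ {y | ∀ G ∈ {G | k G ≠ 0}, y ∉ G} with hO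
  have hOo : IsOpen O := hV2.inter hdY.1
  have hfO : (f ⁻¹' O).Nonempty := by
    obtain ⟨y, hy⟩ := hVne
    obtain ⟨x, rfl⟩ := hsurj y
    exact ⟨x, hy⟩
  have h3 : (f ⁻¹' O ∩ {x | ∀ D ∈ {D | Δ D ≠ 0}, x ∉ D}).Nonempty :=
    hdX.2.inter_open_nonempty _ (hOo.preimage hcont) hfO
  obtain ⟨x, ⟨hxO, hxD⟩, hxs⟩ := hds.inter_open_nonempty _
    ((hOo.preimage hcont).inter hdX.1) h3
  -- the sections above
  have hσ : ∀ b : Fin (j + 1), ∃ σ : X → ℂ,
      IsSection E (fun (D : Set X) z g => IsLocalEq E D g z) (m * q) (fun D => m * K₀ D) σ ∧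
        ∀ z, (∀ G, k G * q ≠ 0 → f z ∉ G) → σ z = t b (f z) ^ q * Jf z ^ m := by
    intro b
    exact hmain m (fun G => k G * q) (fun y => t b y ^ q) hm
      (fun G => by push_cast; rw [hk G]; ring) (isSection_pow (ht b) q)
  choose σ hσs hσv using hσ
  have hev : ∀ᶠ z in 𝓝 x, f z ∈ O ∧ Jf z ≠ 0 ∧ ∀ b, σ b z = t b (f z) ^ q * Jf z ^ m := by
    filter_upwards [(hOo.preimage hcont).mem_nhds hxO, hdo.mem_nhds hxs] with z h1 h2
    refine ⟨h1, hJ z h2, fun b => hσv b z fun G hG => h1.2 G (left_ne_zero_of_mul hG)⟩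
  have hrat : ∀ b : Fin j, (fun z => σ b.succ z / σ 0 z) =ᶠ[𝓝 x]
      fun z => (fun y => (t b.succ y / t 0 y) ^ q) (f z) := by
    intro b
    filter_upwards [hev] with z hz
    have h1 : t 0 (f z) ^ q ≠ 0 := pow_ne_zero _ (hV1 _ hz.1.1).1
    have h2 : Jf z ^ m ≠ 0 := pow_ne_zero _ hz.2.1
    show σ b.succ z / σ 0 z = (t b.succ (f z) / t 0 (f z)) ^ q
    rw [hz.2.2, hz.2.2, div_pow, mul_div_mul_right _ _ h2]
  obtain ⟨hx1, hx2, hx3, hx4⟩ := hV1 _ hxO.1
  refine ⟨m * q, fun D => m * K₀ D, σ, x, Nat.mul_pos hm hq, ?_, hσs, ?_, ?_, ?_⟩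
  · intro D
    push_cast
    rw [hK₀ D]; ring
  · intro D hD
    have hΔ : Δ D ≠ 0 := by
      intro h0
      have h1 := hK₀ D
      rw [h0, mul_zero] at h1
      exact right_ne_zero_of_mul hD (by exact_mod_cast h1)
    obtain ⟨g, hg⟩ := (hpr D hΔ).2.1 x
    exact ⟨g, hg, fun h0 => hxD D hΔ (hg.mem_iff.2 h0)⟩
  · rw [hev.self_of_nhds.2.2]
    exact mul_ne_zero (pow_ne_zero _ hx1) (pow_ne_zero _ hev.self_of_nhds.2.1)
  · have hfun : (fun b : Fin j => dif E (fun w => σ b.succ w / σ 0 w) x) = fun b : Fin j =>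
        ((q : ℂ) * (t b.succ (f x) / t 0 (f x)) ^ (q - 1)) •
          (dif E' (fun w => t b.succ w / t 0 w) (f x)).comp (dM E E' f x) := by
      funext b
      have h1 : dif E (fun w => σ b.succ w / σ 0 w) x =
          dif E (fun z => (fun y => (t b.succ y / t 0 y) ^ q) (f z)) x := dV_congr (hrat b)
      rw [h1, dif_comp (HolV.pow (hx3 b) q) (hf x), dif_pow (hx3 b)]
      rfl
    rw [hfun]
    have h5 : LinearIndependent ℂ (fun b : Fin j =>
        (dif E' (fun w => t b.succ w / t 0 w) (f x)).comp (dM E E' f x)) :=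
      (linearIndependent_precomp hxs _).2 hx4
    have hc : ∀ b : Fin j, (q : ℂ) * (t b.succ (f x) / t 0 (f x)) ^ (q - 1) ≠ 0 := fun b =>
      mul_ne_zero (by exact_mod_cast hq.ne') (pow_ne_zero _ (div_ne_zero (hx2 b) hx1))
    exact h5.units_smul (fun b => Units.mk0 _ (hc b))

end Vale.Agent.P281.MF
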