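import Vale.Agent.P281.Bdl.B1
import Mathlib.Geometry.Manifold.Complex

set_option linter.all false

namespace Vale.Agent.P281.MF

open scoped Manifold ContDiff Topology
open Set Filter Vale.Agent.P281

universe u

/-- sections of `m (K + L)` when `L` has no point: no poles. -/
theorem section_local {E₀ : Type} [NormedAddCommGroup E₀] [NormedSpace ℂ E₀] {F : Type u}
    [TopologicalSpace F] [ChartedSpace E₀ F] [IsManifold 𝓘(ℂ, E₀) ω F]
    {ι : Type u} {eqn : ι → F → (F → ℂ) → Prop} {m : ℕ} {k : ι → ℕ} {s : F → ℂ}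
    (hs : IsSection E₀ eqn m k s)
    (hne : ∀ D, k D ≠ 0 → ∀ p g, eqn D p g → HolV E₀ g p ∧ g p ≠ 0) (p : F) :
    ∃ a : F → ℂ, HolV E₀ a p ∧ ∀ᶠ z in 𝓝 p, s z = a z * jac E₀ (chartAt E₀ p) z ^ m := by
  classical
  obtain ⟨T, g, a, hT, hg, ha, he⟩ := hs p
  have hterm : ∀ D ∈ T, HolV E₀ (fun z => g D z ^ k D) p := by
    intro D hD
    by_cases hk : k D = 0
    · have : (fun z => g D z ^ k D) = fun _ => 1 := by funext z; rw [hk, pow_zero]
      rw [this]; exact HolV.const 1 p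
    · exact ((hne D hk p _ (hg D hD)).1).pow _
  have hP : HolV E₀ (fun z => ∏ D ∈ T, g D z ^ k D) p := HolV.prod hterm
  have hP0 : ∏ D ∈ T, g D p ^ k D ≠ 0 := by
    rw [Finset.prod_ne_zero_iff]
    intro D hD
    by_cases hk : k D = 0
    · rw [hk, pow_zero]; exact one_ne_zero
    · exact pow_ne_zero _ ((hne D hk p _ (hg D hD)).2)
  have hPev : ∀ᶠ z in 𝓝 p, ∏ D ∈ T, g D z ^ k D ≠ 0 := hP.continuousAt.eventually_ne hP0
  refine ⟨fun z => a z / ∏ D ∈ T, g D z ^ k D, HolV.div ha hP hP0, ?_⟩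
  filter_upwards [he, hPev] with z h1 h2
  have := h1 h2
  rw [div_mul_eq_mul_div, eq_div_iff h2, this]

section Lin

variable {E E' E₀ V : Type} [NormedAddCommGroup E] [NormedSpace ℂ E] [FiniteDimensional ℂ E]
  [NormedAddCommGroup E'] [NormedSpace ℂ E'] [FiniteDimensional ℂ E'] [NormedAddCommGroup E₀]
  [NormedSpace ℂ E₀] [FiniteDimensional ℂ E₀] [NormedAddCommGroup V] [NormedSpace ℂ V]
  [FiniteDimensional ℂ V]

theorem exists_theta (hE : Module.finrank ℂ E = Module.finrank ℂ E' + Module.finrank ℂ V)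
    (hE₀ : Module.finrank ℂ E₀ = Module.finrank ℂ V)
    (L : E →L[ℂ] E') (hL : Function.Surjective L) (j : E₀ →L[ℂ] E) (hj : Function.Injective j)
    (hLj : ∀ ξ, L (j ξ) = 0) (τ : V →L[ℂ] E) (hτ : Function.Injective τ)
    (hLτ : ∀ v, L (τ v) = 0) : ∃ θ : V ≃ₗ[ℂ] E₀, ∀ v, j (θ v) = τ v := by
  have hker : Module.finrank ℂ (LinearMap.ker (L : E →ₗ[ℂ] E')) = Module.finrank ℂ V := by
    have h1 := LinearMap.finrank_range_add_finrank_ker (L : E →ₗ[ℂ] E')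
    have h2 : LinearMap.range (L : E →ₗ[ℂ] E') = ⊤ := LinearMap.range_eq_top.2 hL
    rw [h2, finrank_top] at h1
    omega
  have hrj : LinearMap.range (j : E₀ →ₗ[ℂ] E) = LinearMap.ker (L : E →ₗ[ℂ] E') := by
    refine Submodule.eq_of_le_of_finrank_eq ?_ ?_
    · rintro _ ⟨ξ, rfl⟩
      exact hLj ξ
    · rw [LinearMap.finrank_range_of_inj (f := (j : E₀ →ₗ[ℂ] E)) hj, hker, hE₀]
  have hrτ : LinearMap.range (τ : V →ₗ[ℂ] E) = LinearMap.ker (L : E →ₗ[ℂ] E') := by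
    refine Submodule.eq_of_le_of_finrank_eq ?_ ?_
    · rintro _ ⟨ξ, rfl⟩
      exact hLτ ξ
    · rw [LinearMap.finrank_range_of_inj (f := (τ : V →ₗ[ℂ] E)) hτ, hker]
  have hr : LinearMap.range (τ : V →ₗ[ℂ] E) = LinearMap.range (j : E₀ →ₗ[ℂ] E) := by
    rw [hrj, hrτ]
  refine ⟨(LinearEquiv.ofInjective (τ : V →ₗ[ℂ] E) hτ).trans
    ((LinearEquiv.ofEq _ _ hr).trans (LinearEquiv.ofInjective (j : E₀ →ₗ[ℂ] E) hj).symm), ?_⟩
  intro v
  have h := (LinearEquiv.ofInjective (j : E₀ →ₗ[ℂ] E) hj).apply_symm_apply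
    ((LinearEquiv.ofEq _ _ hr) (LinearEquiv.ofInjective (τ : V →ₗ[ℂ] E) hτ v))
  have h2 := congrArg Subtype.val h
  exact h2

theorem det_conj3 (e₀ : E₀ ≃ₗ[ℂ] V) (A B : E₀ →ₗ[ℂ] E₀) (θ : V →ₗ[ℂ] E₀) :
    LinearMap.det ((e₀ : E₀ →ₗ[ℂ] V) ∘ₗ (A ∘ₗ (B ∘ₗ θ))) =
      LinearMap.det A * (LinearMap.det B * LinearMap.det ((e₀ : E₀ →ₗ[ℂ] V) ∘ₗ θ)) := by
  have h1 : (e₀ : E₀ →ₗ[ℂ] V) ∘ₗ (A ∘ₗ (B ∘ₗ θ)) =
      ((e₀ : E₀ →ₗ[ℂ] V) ∘ₗ A ∘ₗ (e₀.symm : V →ₗ[ℂ] E₀)) ∘ₗ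
        (((e₀ : E₀ →ₗ[ℂ] V) ∘ₗ B ∘ₗ (e₀.symm : V →ₗ[ℂ] E₀)) ∘ₗ ((e₀ : E₀ →ₗ[ℂ] V) ∘ₗ θ)) := by
    ext v
    simp
  rw [h1, LinearMap.det_comp, LinearMap.det_comp, LinearMap.det_conj, LinearMap.det_conj]

end Lin

section Det

variable {E E₀ V : Type} [NormedAddCommGroup E] [NormedSpace ℂ E] [FiniteDimensional ℂ E]
  [NormedAddCommGroup E₀] [NormedSpace ℂ E₀] [FiniteDimensional ℂ E₀] [NormedAddCommGroup V]
  [NormedSpace ℂ V] [FiniteDimensional ℂ V] {X F : Type u} [TopologicalSpace X]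
  [ChartedSpace E X] [IsManifold 𝓘(ℂ, E) ω X] [TopologicalSpace F] [ChartedSpace E₀ F]
  [IsManifold 𝓘(ℂ, E₀) ω F]

theorem det_local {i : F → X} (hi : ∀ p, HolM E₀ E i p) (p₀ : F)
    (himm : Function.Injective (dM E₀ E i p₀)) {U : Set X} (hp₀ : i p₀ ∈ U)
    {τ : X → V →L[ℂ] E}
    (hhol : ∀ x ∈ U, ∀ (v : V) (h : X → ℂ), HolV E h x → HolV E (fun z => dif E h z (τ z v)) x)
    (e₀ : E₀ ≃ₗ[ℂ] V) :
    ∃ H : F → ℂ, HolV E₀ H p₀ ∧ ∀ᶠ p in 𝓝 p₀, ∀ θ : V →ₗ[ℂ] E₀,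
      (∀ v, dM E₀ E i p (θ v) = τ (i p) v) →
      jac E₀ (chartAt E₀ p₀) p * LinearMap.det ((e₀ : E₀ →ₗ[ℂ] V) ∘ₗ θ) = H p := by
  classical
  set φ := chartAt E₀ p₀ with hφ
  set ψ := chartAt E (i p₀) with hψ
  have hp0s : p₀ ∈ φ.source := mem_chart_source E₀ p₀
  have hq0s : i p₀ ∈ ψ.source := mem_chart_source E (i p₀)
  let I : F → E := fun p => ψ (i p)
  have hψh : HolV E (ψ : X → E) (i p₀) := HolV.chart hq0s
  have hI : HolV E₀ I p₀ := HolV.comp (h := (ψ : X → E)) hψh (hi p₀)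
  -- derivative at the centre
  have hIc : dV E₀ I p₀ = (dV E (ψ : X → E) (i p₀)).comp (dM E₀ E i p₀) :=
    dV_comp (h := (ψ : X → E)) hψh (hi p₀)
  obtain ⟨Bψ, hBψ⟩ := dV_chart_leftInv (E := E) hq0s
  have hIinj : Function.Injective (dV E₀ I p₀) := by
    rw [injective_iff_map_eq_zero]
    intro ξ hξ
    rw [hIc, ContinuousLinearMap.comp_apply] at hξ
    have h1 := congrArg (fun A : E →L[ℂ] E => A (dM E₀ E i p₀ ξ)) hBψ
    simp only [ContinuousLinearMap.comp_apply, ContinuousLinearMap.id_apply] at h1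
    have h2 : dM E₀ E i p₀ ξ = 0 := by
      rw [← h1]
      exact (congrArg Bψ hξ).trans (map_zero Bψ)
    exact (injective_iff_map_eq_zero _).1 himm ξ h2
  have hIr : dV E₀ I p₀ = (fderiv ℂ (I ∘ φ.symm) (φ p₀)).comp (dV E₀ (φ : F → E₀) p₀) :=
    dV_eq_chart hp0s hI
  obtain ⟨Bφ, hBφ⟩ := dV_chart_leftInv (E := E₀) hp0s
  have hφinj : Function.Injective (dV E₀ (φ : F → E₀) p₀) := by
    intro a b hab
    have h1 := congrArg (fun A : E₀ →L[ℂ] E₀ => A a) hBφ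
    have h2 := congrArg (fun A : E₀ →L[ℂ] E₀ => A b) hBφ
    simp only [ContinuousLinearMap.comp_apply, ContinuousLinearMap.id_apply] at h1 h2
    rw [← h1, ← h2]
    exact congrArg Bφ hab
  have hφsurj : Function.Surjective (dV E₀ (φ : F → E₀) p₀) :=
    (LinearMap.injective_iff_surjective
      (f := ((dV E₀ (φ : F → E₀) p₀ : E₀ →L[ℂ] E₀) : E₀ →ₗ[ℂ] E₀))).1 hφinj
  have hKinj : Function.Injective (fderiv ℂ (I ∘ φ.symm) (φ p₀)) := by
    rw [injective_iff_map_eq_zero]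
    intro w hw
    obtain ⟨ξ, hξ⟩ := hφsurj w
    have h1 : dV E₀ I p₀ ξ = 0 := by
      rw [hIr, ContinuousLinearMap.comp_apply, hξ]
      exact hw
    have h2 := (injective_iff_map_eq_zero _).1 hIinj ξ h1
    rw [← hξ, h2, map_zero]
  obtain ⟨P, hP⟩ := LinearMap.exists_leftInverse_of_injective
    ((fderiv ℂ (I ∘ φ.symm) (φ p₀) : E₀ →L[ℂ] E) : E₀ →ₗ[ℂ] E)
    (LinearMap.ker_eq_bot.2 hKinj)
  let P' : E →L[ℂ] E₀ := LinearMap.toContinuousLinearMap P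
  have hP'a : ∀ v, P' v = P v := fun v => rfl
  let A : E₀ → (E₀ →L[ℂ] E₀) := fun w => P'.comp (fderiv ℂ (I ∘ φ.symm) w)
  have hA : ContDiffAt ℂ ω A (φ p₀) := by
    have h1 : ContDiffAt ℂ ω (fderiv ℂ (I ∘ φ.symm)) (φ p₀) :=
      (hI.rep hp0s).fderiv_right (by simp)
    exact contDiffAt_const.clm_comp h1
  have hA0 : (A (φ p₀)).det = 1 := by
    have : A (φ p₀) = ContinuousLinearMap.id ℂ E₀ := by
      ext w
      have := congrArg (fun B : E₀ →ₗ[ℂ] E₀ => B w) hP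
      exact this
    rw [this]
    simp [ContinuousLinearMap.det]
  have hDA : HolV E₀ (fun p => (A (φ p)).det) p₀ := by
    refine HolV.of_rep hp0s ?_
    have : ContDiffAt ℂ ω (fun w => (A w).det) (φ p₀) :=
      (contDiff_det.contDiffAt).comp _ hA
    refine this.congr_of_eventuallyEq ?_
    filter_upwards [φ.open_target.mem_nhds (φ.map_source hp0s)] with w hw
    have h5 : φ ((chartAt E₀ p₀).symm w) = w := φ.right_inv hw
    simp only [Function.comp_apply]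
    rw [h5]
  -- the determinant of `e₀ P dψ τ`
  let b := Module.finBasis ℂ V
  let n := Module.finrank ℂ V
  let T : F → (V →ₗ[ℂ] E) := fun p =>
    ((dV E (ψ : X → E) (i p) : E →L[ℂ] E) : E →ₗ[ℂ] E) ∘ₗ ((τ (i p) : V →L[ℂ] E) : V →ₗ[ℂ] E)
  let Bd : F → ℂ := fun p => LinearMap.det ((e₀ : E₀ →ₗ[ℂ] V) ∘ₗ (P ∘ₗ T p))
  let ℓ : Fin n → (E →L[ℂ] ℂ) := fun a =>
    LinearMap.toContinuousLinearMap ((b.coord a) ∘ₗ ((e₀ : E₀ →ₗ[ℂ] V) ∘ₗ P))
  have hentry : ∀ a c, HolV E₀ (fun p => dif E (fun z => ℓ a (ψ z)) (i p) (τ (i p) (b c))) p₀ := by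
    intro a c
    have h1 : HolV E (fun z => ℓ a (ψ z)) (i p₀) :=
      HolV.comp_contDiff (G := fun w : E => ℓ a w) (ℓ a).contDiff.contDiffAt hψh
    have h2 := hhol (i p₀) hp₀ (b c) _ h1
    exact HolV.comp h2 (hi p₀)
  have hBdh : HolV E₀ (fun p => ∑ σ : Equiv.Perm (Fin n), ((Equiv.Perm.sign σ : ℤ) : ℂ) *
      ∏ c, dif E (fun z => ℓ (σ c) (ψ z)) (i p) (τ (i p) (b c))) p₀ := by
    refine HolV.sum fun σ _ => (HolV.const _ _).mul (HolV.prod fun c _ => hentry _ _)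
  have hsrc : ∀ᶠ p in 𝓝 p₀, p ∈ φ.source := φ.open_source.mem_nhds hp0s
  have htgt : ∀ᶠ p in 𝓝 p₀, i p ∈ ψ.source :=
    (hi p₀).continuousAt.eventually (ψ.open_source.mem_nhds hq0s)
  have hBdev : ∀ᶠ p in 𝓝 p₀, Bd p = ∑ σ : Equiv.Perm (Fin n), ((Equiv.Perm.sign σ : ℤ) : ℂ) *
      ∏ c, dif E (fun z => ℓ (σ c) (ψ z)) (i p) (τ (i p) (b c)) := by
    filter_upwards [htgt] with p hp
    have hdet : Bd p = (LinearMap.toMatrix b b ((e₀ : E₀ →ₗ[ℂ] V) ∘ₗ (P ∘ₗ T p))).det :=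
      (LinearMap.det_toMatrix b _).symm
    rw [hdet, Matrix.det_apply']
    refine Finset.sum_congr rfl fun σ _ => ?_
    congr 1
    refine Finset.prod_congr rfl fun c _ => ?_
    rw [LinearMap.toMatrix_apply]
    have h1 : dif E (fun z => ℓ (σ c) (ψ z)) (i p) = (ℓ (σ c)).comp (dV E (ψ : X → E) (i p)) := by
      have := dV_comp_contDiff (G := fun w : E => ℓ (σ c) w) (v := (ψ : X → E)) (x := i p)
        (ℓ (σ c)).contDiff.contDiffAt (HolV.chart hp)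
      have h2 : fderiv ℂ (fun w : E => ℓ (σ c) w) (ψ (i p)) = ℓ (σ c) := (ℓ (σ c)).fderiv
      rw [h2] at this
      exact this
    rw [h1]
    rfl
  have hBd : HolV E₀ Bd p₀ := hBdh.congr hBdev
  refine ⟨fun p => Bd p / (A (φ p)).det, hBd.div hDA (by rw [hA0]; exact one_ne_zero), ?_⟩
  have hDAne : ∀ᶠ p in 𝓝 p₀, (A (φ p)).det ≠ 0 :=
    hDA.continuousAt.eventually_ne (by rw [hA0]; exact one_ne_zero)
  filter_upwards [hsrc, htgt, hDAne, hI.eventually] with p h1 h2 h3 h4 θ hθ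
  rw [eq_div_iff h3]
  have hcomp : P ∘ₗ T p = ((A (φ p) : E₀ →L[ℂ] E₀) : E₀ →ₗ[ℂ] E₀) ∘ₗ
      (((dV E₀ (φ : F → E₀) p : E₀ →L[ℂ] E₀) : E₀ →ₗ[ℂ] E₀) ∘ₗ θ) := by
    refine LinearMap.ext fun v => ?_
    have h5 : dV E₀ I p = (dV E (ψ : X → E) (i p)).comp (dM E₀ E i p) :=
      dV_comp (h := (ψ : X → E)) (HolV.chart h2) (hi p)
    have h6 : dV E₀ I p = (fderiv ℂ (I ∘ φ.symm) (φ p)).comp (dV E₀ (φ : F → E₀) p) :=
      dV_eq_chart h1 h4
    have h7 : T p v = fderiv ℂ (I ∘ φ.symm) (φ p) (dV E₀ (φ : F → E₀) p (θ v)) := by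
      have h8 : T p v = dV E (ψ : X → E) (i p) (τ (i p) v) := rfl
      rw [h8, ← hθ v, ← ContinuousLinearMap.comp_apply, ← h5, h6]
      rfl
    change P (T p v) = _
    rw [h7]
    rfl
  have hB2 : Bd p = LinearMap.det ((e₀ : E₀ →ₗ[ℂ] V) ∘ₗ (P ∘ₗ T p)) := rfl
  rw [hB2, hcomp, det_conj3]
  change _ = LinearMap.det _ * (jac E₀ φ p * _)
  change _ * (A (φ p)).det = (A (φ p)).det * (_ * _)
  ring

end Det

theorem kodF_zero {E E' E₀ V : Type} [NormedAddCommGroup E] [NormedSpace ℂ E]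
    [FiniteDimensional ℂ E] [NormedAddCommGroup E'] [NormedSpace ℂ E'] [FiniteDimensional ℂ E']
    [NormedAddCommGroup E₀] [NormedSpace ℂ E₀] [FiniteDimensional ℂ E₀] [NormedAddCommGroup V]
    [NormedSpace ℂ V] [FiniteDimensional ℂ V] {X Y F : Type u} [TopologicalSpace X]
    [ChartedSpace E X] [IsManifold 𝓘(ℂ, E) ω X] [CompactSpace X] [T2Space X] [TopologicalSpace Y]
    [ChartedSpace E' Y] [IsManifold 𝓘(ℂ, E') ω Y] [T2Space Y] [TopologicalSpace F]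
    [ChartedSpace E₀ F] [IsManifold 𝓘(ℂ, E₀) ω F]
    (hE : Module.finrank ℂ E = Module.finrank ℂ E' + Module.finrank ℂ V)
    (hE₀ : Module.finrank ℂ E₀ = Module.finrank ℂ V)
    {f : X → Y} (hf : ∀ x, HolM E E' f x) {ι : Type u} {U : ι → Set X} {τ : ι → X → V →L[ℂ] E}
    {N : ℕ} (hN : 0 < N)
    (hcov : ∀ x, ∃ a, x ∈ U a) (hopen : ∀ a, IsOpen (U a))
    (hinj : ∀ a, ∀ x ∈ U a, Function.Injective (τ a x))
    (hker : ∀ a, ∀ x ∈ U a, ∀ v, dM E E' f x (τ a x v) = 0)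
    (hhol : ∀ a, ∀ x ∈ U a, ∀ (v : V) (h : X → ℂ), HolV E h x →
      HolV E (fun z => dif E h z (τ a z v)) x)
    (htr : ∀ a b, ∀ x ∈ U a ∩ U b, ∃ A : V →ₗ[ℂ] V, LinearMap.det A ^ N = 1 ∧
      ∀ v, τ b x v = τ a x (A v))
    {y : Y} (hconn : IsConnected (f ⁻¹' {y}))
    (hsub : ∀ x, f x = y → Function.Surjective (dM E E' f x))
    {i : F → X} (hi : ∀ p, HolM E₀ E i p) (hi₁ : Topology.IsEmbedding i)
    (hi₂ : Set.range i = f ⁻¹' {y}) (hi₃ : ∀ p, Function.Injective (dM E₀ E i p))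
    {Δ : Set X → ℝ} (hv : ∀ D, Δ D ≠ 0 → ∃ G : Set Y, D = f ⁻¹' G) {j : ℕ}
    (h : KodGE E₀ (fun (D : Set X) p g => ∃ e, IsLocalEq E D e (i p) ∧
      ∀ᶠ q in 𝓝 p, g q = e (i q)) Δ j) : j = 0 := by
  classical
  obtain ⟨m, k, s, z, hm, hk, hs, hz, hs0, hli⟩ := h
  have hfi : ∀ p, f (i p) = y := by
    intro p
    have : i p ∈ f ⁻¹' {y} := hi₂ ▸ mem_range_self p
    exact this
  have hfc : Continuous f := continuous_iff_continuousAt.2 fun x => (hf x).continuousAt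
  -- compactness and connectedness of the fibre
  have hclosed : IsClosed (f ⁻¹' {y}) := isClosed_singleton.preimage hfc
  have hce : Topology.IsClosedEmbedding i := ⟨hi₁, by rw [hi₂]; exact hclosed⟩
  haveI : CompactSpace F := hce.compactSpace
  haveI : PreconnectedSpace F := by
    refine ⟨?_⟩
    rw [← hi₁.isInducing.isPreconnected_image, image_univ, hi₂]
    exact hconn.isPreconnected
  -- the boundary does not meet the fibre
  have hΔk : ∀ D, k D ≠ 0 → Δ D ≠ 0 := by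
    intro D hD h0
    have := hk D
    rw [h0, mul_zero] at this
    exact hD (by exact_mod_cast this)
  have hnot : ∀ D, k D ≠ 0 → ∀ p, i p ∉ D := by
    intro D hD p hp
    obtain ⟨G, hG⟩ := hv D (hΔk D hD)
    obtain ⟨g, ⟨e, he, hge⟩, hg0⟩ := hz D hD
    have h1 : i z ∈ D := by
      rw [hG] at hp ⊢
      have h2 : f (i p) ∈ G := hp
      rw [hfi p] at h2
      have h3 : f (i z) ∈ G := by rw [hfi z]; exact h2
      exact h3
    obtain ⟨W, hW, hzW, -, hWD, -⟩ := he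
    have h4 : e (i z) = 0 := (hWD _ hzW).1 h1
    exact hg0 (by rw [hge.self_of_nhds, h4])
  have hne : ∀ D, k D ≠ 0 → ∀ p (g : F → ℂ), (∃ e, IsLocalEq E D e (i p) ∧
      ∀ᶠ q in 𝓝 p, g q = e (i q)) → HolV E₀ g p ∧ g p ≠ 0 := by
    rintro D hD p g ⟨e, he, hge⟩
    have heh : HolV E e (i p) := he.holAt
    refine ⟨(HolV.comp heh (hi p)).congr hge, ?_⟩
    rw [hge.self_of_nhds]
    obtain ⟨W, hW, hzW, -, hWD, -⟩ := he
    intro h0
    exact hnot D hD p ((hWD _ hzW).2 h0)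
  have hloc : ∀ b p, ∃ a : F → ℂ, HolV E₀ a p ∧
      ∀ᶠ w in 𝓝 p, s b w = a w * jac E₀ (chartAt E₀ p) w ^ m :=
    fun b p => section_local (hs b) hne p
  -- the frames of the fibre
  have hcomp0 : ∀ p ξ, dM E E' f (i p) (dM E₀ E i p ξ) = 0 := by
    intro p ξ
    have h1 : f ∘ i = fun _ => y := funext hfi
    have h2 := mfderiv_comp p (ContMDiffAt.mdifferentiableAt (hf (i p)) (by simp))
      (ContMDiffAt.mdifferentiableAt (hi p) (by simp))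
    rw [h1, mfderiv_const] at h2
    have h3 := congrArg (fun A : E₀ →L[ℂ] E' => A ξ) h2
    exact h3.symm
  let e₀ : E₀ ≃ₗ[ℂ] V := LinearEquiv.ofFinrankEq E₀ V hE₀
  have hθ : ∀ a p, i p ∈ U a → ∃ θ : V ≃ₗ[ℂ] E₀, ∀ v, dM E₀ E i p (θ v) = τ a (i p) v := by
    intro a p hp
    exact exists_theta hE hE₀ (dM E E' f (i p)) (hsub _ (hfi p)) (dM E₀ E i p) (hi₃ p)
      (hcomp0 p) (τ a (i p)) (hinj a _ hp) (hker a _ hp)
  choose α hα using hcov
  choose θ hθ using fun p => hθ (α (i p)) p (hα (i p))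
  let Dl : F → ℂ := fun p => LinearMap.det ((e₀ : E₀ →ₗ[ℂ] V) ∘ₗ (θ p : V →ₗ[ℂ] E₀)) ^ N
  have hDl0 : ∀ p, Dl p ≠ 0 := by
    intro p
    refine pow_ne_zero _ ?_
    exact (LinearEquiv.isUnit_det' ((θ p).trans e₀)).ne_zero
  have hDl : ∀ a p, i p ∈ U a → ∀ θ' : V →ₗ[ℂ] E₀, (∀ v, dM E₀ E i p (θ' v) = τ a (i p) v) →
      LinearMap.det ((e₀ : E₀ →ₗ[ℂ] V) ∘ₗ θ') ^ N = Dl p := by
    intro a p hp θ' hθ'
    obtain ⟨A, hA, hAτ⟩ := htr (α (i p)) a (i p) ⟨hα _, hp⟩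
    have h1 : θ' = (θ p : V →ₗ[ℂ] E₀) ∘ₗ A := by
      refine LinearMap.ext fun v => hi₃ p ?_
      rw [hθ', hAτ]
      exact (hθ p (A v)).symm
    rw [h1, ← LinearMap.comp_assoc, LinearMap.det_comp, mul_pow, hA, mul_one]
  let H : Fin (j + 1) → F → ℂ := fun b p => s b p ^ N * Dl p ^ m
  have hHhol : ∀ b p, HolV E₀ (H b) p := by
    intro b p
    obtain ⟨a, ha, hae⟩ := hloc b p
    obtain ⟨Hd, hHd, hHde⟩ := det_local hi p (hi₃ p) (hα (i p)) (hhol (α (i p))) e₀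
    have hUev : ∀ᶠ q in 𝓝 p, i q ∈ U (α (i p)) :=
      (hi p).continuousAt.eventually ((hopen _).mem_nhds (hα (i p)))
    refine ((ha.pow N).mul (hHd.pow (N * m))).congr ?_
    filter_upwards [hae, hHde, hUev] with q h1 h2 h3
    obtain ⟨θ', hθ'⟩ := exists_theta hE hE₀ (dM E E' f (i q)) (hsub _ (hfi q)) (dM E₀ E i q)
      (hi₃ q) (hcomp0 q) (τ (α (i p)) (i q)) (hinj _ _ h3) (hker _ _ h3)
    have h4 := h2 (θ' : V →ₗ[ℂ] E₀) hθ'
    have h5 := hDl _ q h3 (θ' : V →ₗ[ℂ] E₀) hθ'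
    change s b q ^ N * Dl q ^ m = a q ^ N * Hd q ^ (N * m)
    rw [← h5, ← h4, h1]
    ring
  have hHconst : ∀ b p q, H b p = H b q := by
    intro b p q
    have h1 : MDifferentiable 𝓘(ℂ, E₀) 𝓘(ℂ, ℂ) (H b) := fun x => (hHhol b x).mdiff
    exact h1.apply_eq_of_compactSpace p q
  have hH0z : H 0 z ≠ 0 := mul_ne_zero (pow_ne_zero _ hs0) (pow_ne_zero _ (hDl0 z))
  have hs0' : ∀ p, s 0 p ≠ 0 := by
    intro p h0
    apply hH0z
    rw [hHconst 0 z p]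
    change s 0 p ^ N * Dl p ^ m = 0
    rw [h0, zero_pow hN.ne', zero_mul]
  have hratio : ∀ b p, (s b p / s 0 p) ^ N = H b z / H 0 z := by
    intro b p
    rw [hHconst b z p, hHconst 0 z p, div_pow]
    change _ = (s b p ^ N * Dl p ^ m) / (s 0 p ^ N * Dl p ^ m)
    rw [mul_div_mul_right _ _ (pow_ne_zero _ (hDl0 p))]
  have hdif : ∀ b, dif E₀ (fun w => s b w / s 0 w) z = 0 := by
    intro b
    by_cases hc : H b z = 0
    · have h1 : (fun w => s b w / s 0 w) = fun _ => 0 := by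
        funext w
        have h2 := hratio b w
        rw [hc, zero_div] at h2
        exact (pow_eq_zero_iff hN.ne').1 h2
      rw [h1]
      exact mfderiv_const
    · have hr0 : s b z / s 0 z ≠ 0 := by
        intro h0
        have h2 := hratio b z
        rw [h0, zero_pow hN.ne'] at h2
        exact (div_ne_zero hc hH0z) h2.symm
      obtain ⟨a, ha, hae⟩ := hloc b z
      obtain ⟨a0, ha0, ha0e⟩ := hloc 0 z
      have ha00 : a0 z ≠ 0 := by
        intro h0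
        apply hs0
        rw [ha0e.self_of_nhds, h0, zero_mul]
      have hsne : ∀ᶠ w in 𝓝 z, a0 w ≠ 0 := ha0.continuousAt.eventually_ne ha00
      have hrh : HolV E₀ (fun w => s b w / s 0 w) z := by
        refine (ha.div ha0 ha00).congr ?_
        filter_upwards [hae, ha0e, hsne] with w h1 h2 h3
        have h4 : jac E₀ (chartAt E₀ z) w ^ m ≠ 0 := by
          intro h5
          apply hs0' w
          rw [h2, h5, mul_zero]
        rw [h1, h2, mul_div_mul_right _ _ h4]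
      have hG : ContDiffAt ℂ ω (fun t : ℂ => t ^ N) (s b z / s 0 z) :=
        (contDiff_id.pow N).contDiffAt
      have h1 := dV_comp_contDiff (G := fun t : ℂ => t ^ N) (v := fun w => s b w / s 0 w)
        (x := z) hG hrh
      have h2 : (fun w => (s b w / s 0 w) ^ N) = fun _ => H b z / H 0 z :=
        funext fun w => hratio b w
      rw [h2] at h1
      have h3 : dV E₀ (fun _ : F => H b z / H 0 z) z = 0 := mfderiv_const
      rw [h3] at h1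
      have h4 : fderiv ℂ (fun t : ℂ => t ^ N) (s b z / s 0 z) =
          ContinuousLinearMap.toSpanSingleton ℂ ((N : ℂ) * (s b z / s 0 z) ^ (N - 1)) := by
        have := (hasDerivAt_pow N (s b z / s 0 z)).hasFDerivAt.fderiv
        exact this
      rw [h4] at h1
      refine ContinuousLinearMap.ext fun ξ => ?_
      have h5 := congrArg (fun A : E₀ →L[ℂ] ℂ => A ξ) h1
      have h6 : (0 : ℂ) = dV E₀ (fun w => s b w / s 0 w) z ξ *
          ((N : ℂ) * (s b z / s 0 z) ^ (N - 1)) := h5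
      have h7 : (N : ℂ) * (s b z / s 0 z) ^ (N - 1) ≠ 0 :=
        mul_ne_zero (by exact_mod_cast hN.ne') (pow_ne_zero _ hr0)
      exact (mul_eq_zero.1 h6.symm).resolve_right h7
  by_contra hj
  have hj' : 0 < j := Nat.pos_of_ne_zero hj
  exact hli.ne_zero ⟨0, hj'⟩ (hdif _)

end Vale.Agent.P281.MF
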