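import Vale.Agent.P281.Bdl.B1

/-!
# P281: a section given on a dense set extends (values off the dense set are forced)
-/

open scoped Manifold ContDiff Topology
open Set Filter Vale.Agent.P281

namespace Vale.Agent.P281.MF

universe u

theorem jac_chart_comp {E : Type} [NormedAddCommGroup E] [NormedSpace ℂ E] {X : Type u}
    [TopologicalSpace X] [ChartedSpace E X] [IsManifold 𝓘(ℂ, E) ω X] {x₀ x w : X}
    (hw0 : w ∈ (chartAt E x₀).source) (hw : w ∈ (chartAt E x).source) :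
    jac E (chartAt E x₀ : X → E) w =
      (fderiv ℂ ((chartAt E x₀ : X → E) ∘ (chartAt E x).symm) (chartAt E x w)).det *
        jac E (chartAt E x : X → E) w := by
  have h := dV_eq_chart (h := (chartAt E x₀ : X → E)) hw (HolV.chart hw0)
  have h1 : jac E (chartAt E x₀ : X → E) w = (dV E (chartAt E x₀ : X → E) w).det := rfl
  rw [h1, h]
  exact clm_det_comp _ _

theorem continuousAt_jac_ratio {E : Type} [NormedAddCommGroup E] [NormedSpace ℂ E]
    [FiniteDimensional ℂ E] {X : Type u}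
    [TopologicalSpace X] [ChartedSpace E X] [IsManifold 𝓘(ℂ, E) ω X] {x₀ z : X}
    (hz0 : z ∈ (chartAt E x₀).source) :
    ContinuousAt (fun w =>
      (fderiv ℂ ((chartAt E x₀ : X → E) ∘ (chartAt E z).symm) (chartAt E z w)).det) z := by
  have hz : z ∈ (chartAt E z).source := mem_chart_source E z
  have h1 : ContinuousAt (fderiv ℂ ((chartAt E x₀ : X → E) ∘ (chartAt E z).symm))
      (chartAt E z z) :=
    (((HolV.chart hz0).rep hz).fderiv_right (m := ω) (by simp)).continuousAt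
  have h2 : ContinuousAt (fun w =>
      fderiv ℂ ((chartAt E x₀ : X → E) ∘ (chartAt E z).symm) (chartAt E z w)) z :=
    ContinuousAt.comp h1 ((chartAt E z).continuousAt hz)
  have h3 : Continuous fun A : E →L[ℂ] E => A.det := ContinuousLinearMap.continuous_det
  exact (h3.tendsto _).comp h2.tendsto

theorem extend_section {E : Type} [NormedAddCommGroup E] [NormedSpace ℂ E]
    [FiniteDimensional ℂ E] {X : Type u} [TopologicalSpace X] [ChartedSpace E X]
    [IsManifold 𝓘(ℂ, E) ω X] {m : ℕ} {K : Set X → ℕ} {Ω : Set X} (hΩ : Dense Ω) {σ : X → ℂ}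
    (h : ∀ z₀ : X, ∃ (T : Finset (Set X)) (g : Set X → X → ℂ) (Q : X → ℂ),
      (∀ D, K D ≠ 0 → D ∈ T) ∧ (∀ D ∈ T, IsLocalEq E D (g D) z₀) ∧ HolV E Q z₀ ∧
      ∀ᶠ z in 𝓝 z₀, z ∈ Ω → ∏ D ∈ T, g D z ^ K D ≠ 0 →
        σ z * ∏ D ∈ T, g D z ^ K D = Q z * jac E (chartAt E z₀) z ^ m) :
    ∃ σ' : X → ℂ, (∀ z ∈ Ω, σ' z = σ z) ∧
      IsSection E (fun (D : Set X) z g => IsLocalEq E D g z) m K σ' := by
  classical
  choose T g Q hT hg hQ hs using h
  refine ⟨fun z => if z ∈ Ω then σ z else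
    Q z z * jac E (chartAt E z : X → E) z ^ m / ∏ D ∈ T z, g z D z ^ K D,
    fun z hz => if_pos hz, fun z₀ => ⟨T z₀, g z₀, Q z₀, hT z₀, hg z₀, hQ z₀, ?_⟩⟩
  have hev : ∀ᶠ z in 𝓝 z₀, ∀ D ∈ T z₀, IsLocalEq E D (g z₀ D) z :=
    (Finset.eventually_all (T z₀)).2 fun D hD => (hg z₀ D hD).eventually
  have hev2 : ∀ᶠ z in 𝓝 z₀, ∀ᶠ w in 𝓝 z, w ∈ Ω → ∏ D ∈ T z₀, g z₀ D w ^ K D ≠ 0 →
      σ w * ∏ D ∈ T z₀, g z₀ D w ^ K D = Q z₀ w * jac E (chartAt E z₀ : X → E) w ^ m :=
    (hs z₀).eventually_nhds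
  filter_upwards [hs z₀, hev, hev2, (hQ z₀).eventually,
    (chartAt E z₀).open_source.mem_nhds (mem_chart_source E z₀)] with z h1 h2 h3 h4 hz0 hne
  by_cases hz : z ∈ Ω
  · simp only [if_pos hz]
    exact h1 hz hne
  · simp only [if_neg hz]
    have hzs : z ∈ (chartAt E z).source := mem_chart_source E z
    -- the product of the equations at `z` is not zero
    have hne' : ∏ D ∈ T z, g z D z ^ K D ≠ 0 := by
      rw [Finset.prod_ne_zero_iff]
      intro D hD
      by_cases hK : K D = 0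
      · rw [hK, pow_zero]
        exact one_ne_zero
      · have h5 : g z₀ D z ^ K D ≠ 0 := Finset.prod_ne_zero_iff.1 hne D (hT z₀ D hK)
        have h6 : g z₀ D z ≠ 0 := fun h0 => h5 (by rw [h0, zero_pow hK])
        have h7 : z ∉ D := fun hzD => h6 ((h2 D (hT z₀ D hK)).mem_iff.1 hzD)
        exact pow_ne_zero _ fun h0 => h7 ((hg z D hD).mem_iff.2 h0)
    -- continuity at `z`
    have hc0 : ContinuousAt (fun w => ∏ D ∈ T z₀, g z₀ D w ^ K D) z :=
      tendsto_finsetProd _ fun D hD => ((h2 D hD).holAt.continuousAt).pow _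
    have hcz : ContinuousAt (fun w => ∏ D ∈ T z, g z D w ^ K D) z :=
      tendsto_finsetProd _ fun D hD => ((hg z D hD).holAt.continuousAt).pow _
    have hQ0 : ContinuousAt (Q z₀) z := h4.continuousAt
    have hQz : ContinuousAt (Q z) z := (hQ z).continuousAt
    have hδ := continuousAt_jac_ratio (E := E) hz0
    set δ : X → ℂ := fun w =>
      (fderiv ℂ ((chartAt E z₀ : X → E) ∘ (chartAt E z).symm) (chartAt E z w)).det with hδdef
    have hL : ContinuousAt (fun w => Q z₀ w * δ w ^ m * ∏ D ∈ T z, g z D w ^ K D) z :=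
      (hQ0.mul (hδ.pow m)).mul hcz
    have hR : ContinuousAt (fun w => Q z w * ∏ D ∈ T z₀, g z₀ D w ^ K D) z := hQz.mul hc0
    have heq : (fun w => Q z₀ w * δ w ^ m * ∏ D ∈ T z, g z D w ^ K D) =ᶠ[𝓝[Ω] z]
        fun w => Q z w * ∏ D ∈ T z₀, g z₀ D w ^ K D := by
      have e1 : ∀ᶠ w in 𝓝[Ω] z, w ∈ Ω := self_mem_nhdsWithin
      filter_upwards [e1, h3.filter_mono nhdsWithin_le_nhds,
        (hs z).filter_mono nhdsWithin_le_nhds,
        (hc0.eventually_ne hne).filter_mono nhdsWithin_le_nhds,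
        (hcz.eventually_ne hne').filter_mono nhdsWithin_le_nhds,
        mem_nhdsWithin_of_mem_nhds ((chartAt E z₀).open_source.mem_nhds hz0),
        mem_nhdsWithin_of_mem_nhds ((chartAt E z).open_source.mem_nhds hzs)] with
        w w1 w2 w3 w4 w5 w6 w7
      have a1 := w2 w1 w4
      have a2 := w3 w1 w5
      have a3 : jac E (chartAt E z₀ : X → E) w = δ w * jac E (chartAt E z : X → E) w :=
        jac_chart_comp w6 w7
      have a4 : jac E (chartAt E z : X → E) w ^ m ≠ 0 := pow_ne_zero _ (jac_chart_ne_zero w7)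
      rw [a3, mul_pow] at a1
      have a5 : (Q z₀ w * δ w ^ m * ∏ D ∈ T z, g z D w ^ K D) *
          jac E (chartAt E z : X → E) w ^ m =
          (Q z w * ∏ D ∈ T z₀, g z₀ D w ^ K D) * jac E (chartAt E z : X → E) w ^ m := by
        calc _ = (Q z₀ w * (δ w ^ m * jac E (chartAt E z : X → E) w ^ m)) *
              ∏ D ∈ T z, g z D w ^ K D := by ring
          _ = (σ w * ∏ D ∈ T z₀, g z₀ D w ^ K D) * ∏ D ∈ T z, g z D w ^ K D := by rw [a1]
          _ = (σ w * ∏ D ∈ T z, g z D w ^ K D) * ∏ D ∈ T z₀, g z₀ D w ^ K D := by ring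
          _ = _ := by
            rw [a2]
            ring
      exact mul_right_cancel₀ a4 a5
    have : NeBot (𝓝[Ω] z) := mem_closure_iff_nhdsWithin_neBot.1 (hΩ z)
    have key := tendsto_nhds_unique_of_eventuallyEq
      (hL.tendsto.mono_left nhdsWithin_le_nhds) (hR.tendsto.mono_left nhdsWithin_le_nhds) heq
    have a3 : jac E (chartAt E z₀ : X → E) z = δ z * jac E (chartAt E z : X → E) z :=
      jac_chart_comp hz0 hzs
    rw [a3, mul_pow, div_mul_eq_mul_div, div_eq_iff hne']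
    calc _ = (Q z z * ∏ D ∈ T z₀, g z₀ D z ^ K D) * jac E (chartAt E z : X → E) z ^ m := by ring
      _ = (Q z₀ z * δ z ^ m * ∏ D ∈ T z, g z D z ^ K D) *
          jac E (chartAt E z : X → E) z ^ m := by rw [key]
      _ = _ := by ring

end Vale.Agent.P281.MF
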