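import Vale.Agent.P281.J

namespace Vale.Agent.P281.J

open scoped Manifold ContDiff Topology
open Set

universe u

variable (E E' : Type) [NormedAddCommGroup E] [NormedSpace ℂ E]
  [NormedAddCommGroup E'] [NormedSpace ℂ E']
variable {X Y : Type u} [TopologicalSpace X] [ChartedSpace E X]
  [TopologicalSpace Y] [ChartedSpace E' Y]

/-- `f^* G = κ D`, where `D = f⁻¹(G)` is a prime divisor of `X`: near every point of `D`,
`f^* g = e ^ κ * unit`, where `e`, `g` are local equations of `D`, `G`. -/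
def IsMultiple (f : X → Y) (G : Set Y) (κ : ℕ) : Prop :=
  IsPrime E (f ⁻¹' G) ∧ ∀ x ∈ f ⁻¹' G, ∃ e g w, IsLocalEq E (f ⁻¹' G) e x ∧
    IsLocalEq E' G g (f x) ∧ HolAt E w x ∧ w x ≠ 0 ∧ ∀ᶠ z in 𝓝 x, g (f z) = e z ^ κ * w z

variable {V : Type} [NormedAddCommGroup V] [NormedSpace ℂ V]

/-- The `τ a x : V → E = T_x X`, `x ∈ U a`, are holomorphic frames of a subbundle `𝒱` of the tangent
bundle of `X`, of rank `dim V`, contained in the kernel of `df`, and `(det 𝒱) ^ N` is trivialized by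
them: `X` is covered by the open sets `U a`, the `τ a x` are injective, `df (τ a x v) = 0`, the
derivative of a holomorphic function along the vector field `τ a · v` is holomorphic, and the
transition matrices `A` between the frames satisfy `(det A) ^ N = 1`. -/
def IsVerticalFrame (f : X → Y) (N : ℕ) {ι : Type u} (U : ι → Set X)
    (τ : ι → X → V →L[ℂ] E) : Prop :=
  (∀ x, ∃ a, x ∈ U a) ∧
  (∀ a, IsOpen (U a) ∧ ∀ x ∈ U a, Function.Injective (τ a x) ∧
    (∀ v, mfderiv 𝓘(ℂ, E) 𝓘(ℂ, E') f x (τ a x v) = 0) ∧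
    ∀ (v : V) (h : X → ℂ), HolAt E h x → HolAt E (fun z => dif E h z (τ a z v)) x) ∧
  ∀ a b, ∀ x ∈ U a ∩ U b, ∃ A : V →ₗ[ℂ] V, LinearMap.det A ^ N = 1 ∧
    ∀ v, τ b x v = τ a x (A v)

end Vale.Agent.P281.J
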