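import Vale.Agent.P281.MF.Ext2

open Set Filter Metric Topology

namespace Vale.Agent.P281.MF

variable {E : Type*} [NormedAddCommGroup E] [NormedSpace ℂ E] [FiniteDimensional ℂ E]
  {W : Type*} [NormedAddCommGroup W] [NormedSpace ℂ W] [CompleteSpace W]

open scoped ContDiff

/-- Identity theorem along a smooth hypersurface. -/
theorem local_ident {e : E → ℂ} {θ : E → W} {a : E} (he : AnalyticAt ℂ e a)
    (hθ : AnalyticAt ℂ θ a) (h0 : e a = 0) (hd : fderiv ℂ e a ≠ 0) :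
    ∃ V : Set E, IsOpen V ∧ a ∈ V ∧
      ((∃ o ∈ V, e o = 0 ∧ ∀ᶠ w in 𝓝 o, e w = 0 → θ w = 0) → ∀ w ∈ V, e w = 0 → θ w = 0) := by
  have : CompleteSpace E := FiniteDimensional.complete ℂ E
  set ℓ := fderiv ℂ e a with hℓ
  obtain ⟨η, hη⟩ : ∃ η, ℓ η = 1 := by
    obtain ⟨ξ, hξ⟩ : ∃ ξ, ℓ ξ ≠ 0 := by
      by_contra hcon
      push Not at hcon
      exact hd (ContinuousLinearMap.ext hcon)
    exact ⟨(ℓ ξ)⁻¹ • ξ, by simp [hξ]⟩
  set Ψ : E → E := fun w => w + (e w - ℓ (w - a)) • η with hΨ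
  have hΨa : Ψ a = a := by simp [hΨ, h0]
  have hΨc : ContDiffAt ℂ ω Ψ a := by
    have h1 : ContDiffAt ℂ ω e a := he.contDiffAt
    have h2 : ContDiffAt ℂ ω (fun w => ℓ (w - a)) a :=
      (ℓ.contDiff.comp (contDiff_id.sub contDiff_const)).contDiffAt
    exact contDiffAt_id.add ((h1.sub h2).smul contDiffAt_const)
  have hΨd : HasFDerivAt Ψ ((ContinuousLinearEquiv.refl ℂ E : E ≃L[ℂ] E) : E →L[ℂ] E) a := by
    have h1 : HasFDerivAt e ℓ a := he.differentiableAt.hasFDerivAt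
    have h2 : HasFDerivAt (fun w => ℓ (w - a)) ℓ a := by
      have h3 : HasFDerivAt (fun w : E => w - a) (ContinuousLinearMap.id ℂ E) a :=
        (hasFDerivAt_id a).sub_const a
      have h4 : HasFDerivAt ℓ ℓ (a - a) := ℓ.hasFDerivAt
      have h5 := HasFDerivAt.comp (g := ℓ) (f := fun w : E => w - a) a h4 h3
      exact h5.congr_fderiv (ContinuousLinearMap.comp_id ℓ)
    have h3 := (hasFDerivAt_id (𝕜 := ℂ) a).add ((h1.sub h2).smul_const η)
    refine h3.congr_fderiv ?_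
    ext ξ
    simp
  have hn : (ω : WithTop ℕ∞) ≠ 0 := by simp
  set g := hΨc.localInverse hΨd hn with hg
  have hgc : ContDiffAt ℂ ω g a := by
    have := hΨc.to_localInverse hΨd hn
    rwa [hΨa] at this
  have hstr : HasStrictFDerivAt Ψ ((ContinuousLinearEquiv.refl ℂ E : E ≃L[ℂ] E) : E →L[ℂ] E) a :=
    hΨc.hasStrictFDerivAt' hΨd hn
  have hleft : ∀ᶠ x in 𝓝 a, g (Ψ x) = x := hstr.eventually_left_inverse
  have hright : ∀ᶠ y in 𝓝 a, Ψ (g y) = y := by
    have := hstr.eventually_right_inverse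
    rwa [hΨa] at this
  have hga : g a = a := by
    have := hleft.self_of_nhds
    rwa [hΨa] at this
  set κ : E → E := fun u => u - ℓ (u - a) • η with hκ
  have hκc : ContDiff ℂ ω κ := by
    have h2 : ContDiff ℂ ω (fun w => ℓ (w - a)) := ℓ.contDiff.comp (contDiff_id.sub contDiff_const)
    exact contDiff_id.sub (h2.smul contDiff_const)
  have hκa : κ a = a := by simp [hκ]
  have hℓκ : ∀ u, ℓ (κ u - a) = 0 := by
    intro u
    simp only [hκ, map_sub, map_smul, smul_eq_mul, hη]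
    ring
  set Θ : E → W := fun u => θ (g (κ u)) with hΘ
  have hΘa : AnalyticAt ℂ Θ a := by
    have h1 : AnalyticAt ℂ κ a := hκc.contDiffAt.analyticAt
    have h2 : AnalyticAt ℂ g (κ a) := by rw [hκa]; exact hgc.analyticAt
    have h3 : AnalyticAt ℂ θ (g (κ a)) := by rw [hκa, hga]; exact hθ
    have h4 : AnalyticAt ℂ (fun u => g (κ u)) a := AnalyticAt.fun_comp h2 h1
    exact AnalyticAt.fun_comp (g := θ) (f := fun u => g (κ u)) h3 h4
  obtain ⟨ε, hε, hball⟩ := Metric.eventually_nhds_iff_ball.1 hΘa.eventually_analyticAt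
  have hgcont : ∀ᶠ y in 𝓝 a, ContinuousAt g y := by
    filter_upwards [hgc.analyticAt.eventually_analyticAt] with y hy using hy.continuousAt
  obtain ⟨N, hN, hNo, haN⟩ := _root_.eventually_nhds_iff.1 (hright.and hgcont)
  have hℓΨ : ∀ w, ℓ (Ψ w - a) = e w := by
    intro w
    simp only [hΨ, map_sub, map_add, map_smul, smul_eq_mul, hη]
    ring
  have hΨcont : ∀ᶠ w in 𝓝 a, Ψ w ∈ N ∧ Ψ w ∈ ball a ε := by
    have h1 : Tendsto Ψ (𝓝 a) (𝓝 a) := by
      have := hΨc.continuousAt.tendsto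
      rwa [hΨa] at this
    have h2 : ∀ᶠ y in 𝓝 a, y ∈ N ∧ y ∈ ball a ε :=
      Filter.Eventually.and (hNo.mem_nhds haN) (ball_mem_nhds a hε)
    exact h1.eventually h2
  obtain ⟨V, hV, hVo, haV⟩ := _root_.eventually_nhds_iff.1 (hleft.and hΨcont)
  refine ⟨V, hVo, haV, ?_⟩
  rintro ⟨o, hoV, ho0, hoe⟩ w hwV hw0
  have hκΨ : ∀ w, e w = 0 → κ (Ψ w) = Ψ w := by
    intro w hw
    simp only [hκ]
    rw [hℓΨ, hw, zero_smul, sub_zero]
  have hcκ : ContinuousAt κ (Ψ o) := hκc.continuous.continuousAt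
  have h1 : ∀ᶠ u in 𝓝 (Ψ o), κ u ∈ N := by
    refine hcκ.eventually ?_
    rw [hκΨ o ho0]
    exact hNo.mem_nhds (hV o hoV).2.1
  have h2 : ∀ᶠ u in 𝓝 (Ψ o), e (g (κ u)) = 0 → θ (g (κ u)) = 0 := by
    have h3 : Tendsto (fun u => g (κ u)) (𝓝 (Ψ o)) (𝓝 o) := by
      have h4 : ContinuousAt g (κ (Ψ o)) := by
        rw [hκΨ o ho0]
        exact (hN _ (hV o hoV).2.1).2
      have h5 : Tendsto (fun u => g (κ u)) (𝓝 (Ψ o)) (𝓝 (g (κ (Ψ o)))) :=
        ContinuousAt.comp (g := g) (f := κ) h4 hcκ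
      rwa [hκΨ o ho0, (hV o hoV).1] at h5
    exact h3.eventually hoe
  have hzero : Θ =ᶠ[𝓝 (Ψ o)] 0 := by
    filter_upwards [h1, h2] with u hu1 hu2
    refine hu2 ?_
    rw [← hℓΨ, (hN _ hu1).1, hℓκ]
  have hall := AnalyticOnNhd.eqOn_zero_of_preconnected_of_eventuallyEq_zero
    (f := Θ) (U := ball a ε) (fun y hy => hball y hy)
    (convex_ball a ε).isPreconnected (hV o hoV).2.2 hzero
  have h5 := hall (hV w hwV).2.2
  simp only [hΘ, Pi.zero_apply] at h5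
  rwa [hκΨ w hw0, (hV w hwV).1] at h5

end Vale.Agent.P281.MF
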