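import Vale.Agent.P281.Bdl.B1
import Vale.Agent.P281.MF.Loc

open scoped Manifold ContDiff Topology
open Set Filter Metric

namespace Vale.Agent.P281.MF

open Vale.Agent.P281

set_option linter.unusedSectionVars false

universe u

section

variable {E : Type} [NormedAddCommGroup E] [NormedSpace ℂ E]
variable {X : Type u} [TopologicalSpace X] [ChartedSpace E X] [IsManifold 𝓘(ℂ, E) ω X]
variable {W : Type*} [NormedAddCommGroup W] [NormedSpace ℂ W]

theorem tendsto_symm (x : X) : Tendsto (chartAt E x).symm (𝓝 (chartAt E x x)) (𝓝 x) := by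
  have hx : x ∈ (chartAt E x).source := mem_chart_source E x
  have := ((chartAt E x).continuousAt_symm ((chartAt E x).map_source hx)).tendsto
  rwa [(chartAt E x).left_inv hx] at this

theorem tendsto_chart (x : X) : Tendsto (chartAt E x) (𝓝 x) (𝓝 (chartAt E x x)) :=
  ((chartAt E x).continuousAt (mem_chart_source E x)).tendsto

theorem rep_analytic {h : X → W} {x : X} (hh : HolV E h x) :
    AnalyticAt ℂ (h ∘ (chartAt E x).symm) (chartAt E x x) :=
  (hh.rep (mem_chart_source E x)).analyticAt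

theorem of_analytic {h : E → W} {x : X} (hh : AnalyticAt ℂ h (chartAt E x x)) [CompleteSpace W] :
    HolV E (fun z => h (chartAt E x z)) x := by
  refine HolV.of_rep (mem_chart_source E x) ?_
  refine hh.contDiffAt.congr_of_eventuallyEq ?_
  filter_upwards [(chartAt E x).open_target.mem_nhds ((chartAt E x).map_source
    (mem_chart_source E x))] with w hw
  simp [(chartAt E x).right_inv hw]

/-- Extension theorem on manifolds. -/
theorem extendM [FiniteDimensional ℂ E] {Num Den : X → ℂ} {x : X} (hN : HolV E Num x)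
    (hD : HolV E Den x) (hne : ¬ ∀ᶠ z in 𝓝 x, Den z = 0)
    (hb : ∀ᶠ z in 𝓝 x, Den z = 0 → z ∈ closure {y | Den y = 0 ∧
      ∃ C : ℝ, ∀ᶠ w in 𝓝 y, ‖Num w‖ ≤ C * ‖Den w‖}) :
    ∃ Q : X → ℂ, HolV E Q x ∧ ∀ᶠ z in 𝓝 x, Num z = Den z * Q z := by
  set φ := chartAt E x with hφ
  have hx : x ∈ φ.source := mem_chart_source E x
  obtain ⟨Q, hQ, hQe⟩ := extend_quotient (E := E) (Num := Num ∘ φ.symm) (Den := Den ∘ φ.symm)
    (x₀ := φ x) (rep_analytic hN) (rep_analytic hD) (by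
      intro h
      apply hne
      filter_upwards [(tendsto_chart x).eventually h, φ.open_source.mem_nhds hx] with z hz hzs
      have : Den (φ.symm (φ z)) = 0 := hz
      rwa [φ.left_inv hzs] at this) (by
      filter_upwards [(tendsto_symm x).eventually hb, φ.open_target.mem_nhds (φ.map_source hx)]
        with w hw hwt hw0
      have h1 := mem_closure_iff_frequently.1 (hw hw0)
      rw [mem_closure_iff_frequently]
      have hws : φ.symm w ∈ φ.source := φ.map_target hwt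
      have h2 : Tendsto φ (𝓝 (φ.symm w)) (𝓝 w) := by
        have := (φ.continuousAt hws).tendsto
        rwa [φ.right_inv hwt] at this
      refine h2.frequently ?_
      refine (h1.and_eventually (φ.open_source.mem_nhds hws)).mono ?_
      rintro y ⟨⟨hy0, C, hC⟩, hys⟩
      refine ⟨by simp only [Function.comp_apply, φ.left_inv hys]; exact hy0, C, ?_⟩
      have h3 : Tendsto φ.symm (𝓝 (φ y)) (𝓝 y) := by
        have := (φ.continuousAt_symm (φ.map_source hys)).tendsto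
        rwa [φ.left_inv hys] at this
      exact h3.eventually hC)
  refine ⟨fun z => Q (φ z), of_analytic hQ, ?_⟩
  filter_upwards [(tendsto_chart x).eventually hQe, φ.open_source.mem_nhds hx] with z hz hzs
  have h4 : Num (φ.symm (φ z)) = Den (φ.symm (φ z)) * Q (φ z) := hz
  rwa [φ.left_inv hzs] at h4

omit [IsManifold 𝓘(ℂ, E) ω X] in
theorem leq_not_zero {D : Set X} {e : X → ℂ} {x : X} (h : IsLocalEq E D e x) :
    ¬ ∀ᶠ z in 𝓝 x, e z = 0 := by
  intro hz
  have hxD : x ∈ D := h.mem_iff.2 hz.self_of_nhds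
  obtain ⟨V, hV, hxV, h1, h2, h3⟩ := h
  obtain ⟨V', hV', hV'o, hxV'⟩ := _root_.eventually_nhds_iff.1 hz
  obtain ⟨w, hwV, hwD, hwd⟩ := mem_closure_iff_nhds.1 (h3 ⟨hxD, hxV⟩) V' (hV'o.mem_nhds hxV')
  apply hwd
  have : e =ᶠ[𝓝 w] fun _ => (0 : ℂ) := by
    filter_upwards [hV'o.mem_nhds hwV] with z hz using hV' z hz
  unfold dif
  rw [this.mfderiv_eq, mfderiv_const]
  rfl

omit [IsManifold 𝓘(ℂ, E) ω X] in
theorem leq_frequently_ne {D : Set X} {e : X → ℂ} {x : X} (h : IsLocalEq E D e x) :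
    ∀ᶠ y in 𝓝 x, ∃ᶠ z in 𝓝 y, e z ≠ 0 := by
  filter_upwards [h.eventually] with y hy
  exact fun hcon => leq_not_zero hy (by simpa using hcon)

omit [IsManifold 𝓘(ℂ, E) ω X] in
theorem leq_dense_dif {D : Set X} {e : X → ℂ} {x : X} (h : IsLocalEq E D e x) :
    ∀ᶠ z in 𝓝 x, z ∈ D → z ∈ closure {y | y ∈ D ∧ dif E e y ≠ 0} := by
  obtain ⟨V, hV, hxV, h1, h2, h3⟩ := h
  filter_upwards [hV.mem_nhds hxV] with z hz hzD using h3 ⟨hzD, hz⟩

/-- Local equations are unique up to units. -/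
theorem leq_unit [FiniteDimensional ℂ E] {D : Set X} {e e' : X → ℂ} {x : X}
    (h : IsLocalEq E D e x) (h' : IsLocalEq E D e' x) :
    ∃ u : X → ℂ, HolV E u x ∧ u x ≠ 0 ∧ ∀ᶠ z in 𝓝 x, e' z = e z * u z := by
  have key : ∀ {e e' : X → ℂ}, IsLocalEq E D e x → IsLocalEq E D e' x →
      ∃ u : X → ℂ, HolV E u x ∧ ∀ᶠ z in 𝓝 x, e' z = e z * u z := by
    intro e e' h h'
    refine extendM h'.holAt h.holAt (leq_not_zero h) ?_
    filter_upwards [h.eventually, leq_dense_dif h, eventually_eventually_nhds.2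
      (h.eventually.and h'.eventually)] with z hz hzd hze hz0
    have h1 := mem_closure_iff_frequently.1 (hzd (hz.mem_iff.2 hz0))
    rw [mem_closure_iff_frequently]
    refine (h1.and_eventually hze).mono ?_
    rintro y ⟨⟨hyD, hyd⟩, hye, hye'⟩
    exact ⟨hye.mem_iff.1 hyD, IsLocalEq.bound hye hye' fun _ => hyd⟩
  obtain ⟨u, hu, hue⟩ := key h h'
  obtain ⟨u', hu', hue'⟩ := key h' h
  refine ⟨u, hu, ?_, hue⟩
  have h1 : ∃ᶠ z in 𝓝 x, u z * u' z = 1 := by
    have h2 : ∃ᶠ z in 𝓝 x, e z ≠ 0 := fun hcon => leq_not_zero h (by simpa using hcon)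
    refine (h2.and_eventually (hue.and hue')).mono ?_
    rintro z ⟨hz0, hz1, hz2⟩
    rw [hz1] at hz2
    have : e z * (u z * u' z) = e z * 1 := by rw [mul_one, ← mul_assoc]; exact hz2.symm
    exact mul_left_cancel₀ hz0 this
  have h3 : ContinuousAt (fun z => u z * u' z) x := hu.continuousAt.mul hu'.continuousAt
  intro h0
  have h4 : ∀ᶠ z in 𝓝 x, u z * u' z ≠ 1 := h3.eventually_ne (by simp [h0])
  exact h1 (h4.mono fun z hz => hz)

theorem dif_mul {a b : X → ℂ} {x : X} (ha : HolV E a x) (hb : HolV E b x) (h0 : a x = 0) :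
    dif E (fun z => a z * b z) x = b x • dif E a x := by
  have := dV_smul (E := E) (lam := b) (v := a) hb ha
  have h2 : (fun z => a z * b z) = fun z => b z • a z := by funext z; simp [mul_comm]
  rw [h2, dif_eq_dV, this, h0]
  ext ξ
  simp [dif_eq_dV]

/-- the smooth locus does not depend on the local equation. -/
theorem leq_dif_ne [FiniteDimensional ℂ E] {D : Set X} {e e' : X → ℂ} {x : X}
    (h : IsLocalEq E D e x) (h' : IsLocalEq E D e' x) (hx : x ∈ D) (hd : dif E e x ≠ 0) :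
    dif E e' x ≠ 0 := by
  obtain ⟨u, hu, hu0, hue⟩ := leq_unit h h'
  have h1 : dif E e' x = dif E (fun z => e z * u z) x := by
    unfold dif
    exact Filter.EventuallyEq.mfderiv_eq hue
  rw [h1, dif_mul h.holAt hu (h.mem_iff.1 hx)]
  exact smul_ne_zero hu0 hd

theorem local_identM [FiniteDimensional ℂ E] [CompleteSpace W] {D : Set X} {e : X → ℂ} {z : X}
    (he : IsLocalEq E D e z) (hzD : z ∈ D) (hd : dif E e z ≠ 0) {θ : X → W} (hθ : HolV E θ z) :
    ∃ V : Set X, IsOpen V ∧ z ∈ V ∧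
      ((∃ o ∈ V, o ∈ D ∧ ∀ᶠ w in 𝓝 o, w ∈ D → θ w = 0) → ∀ w ∈ V, w ∈ D → θ w = 0) := by
  set φ := chartAt E z with hφ
  have hz : z ∈ φ.source := mem_chart_source E z
  obtain ⟨V', hV'o, hzV', hV'⟩ := local_ident (E := E) (e := e ∘ φ.symm) (θ := θ ∘ φ.symm)
    (a := φ z) (rep_analytic he.holAt) (rep_analytic hθ)
    (by simp only [Function.comp_apply, φ.left_inv hz]; exact he.mem_iff.1 hzD)
    (by
      intro h0
      apply hd
      rw [dif_eq_dV, dV_eq_chart hz he.holAt]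
      simp only [← hφ]
      rw [h0]
      ext; simp)
  obtain ⟨V₁, hV₁, hV₁o, hzV₁⟩ := _root_.eventually_nhds_iff.1
    (he.eventually.mono fun w hw => hw.mem_iff)
  refine ⟨(φ.source ∩ φ ⁻¹' V') ∩ V₁, (φ.isOpen_inter_preimage hV'o).inter hV₁o,
    ⟨⟨hz, hzV'⟩, hzV₁⟩, ?_⟩
  rintro ⟨o, ⟨⟨hos, hoV'⟩, hoV₁⟩, hoD, hoe⟩ w ⟨⟨hws, hwV'⟩, hwV₁⟩ hwD
  have h1 := hV' ⟨φ o, hoV', by
    simp only [Function.comp_apply, φ.left_inv hos]; exact (hV₁ o hoV₁).1 hoD, by
    have h2 : Tendsto φ.symm (𝓝 (φ o)) (𝓝 o) := by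
      have := (φ.continuousAt_symm (φ.map_source hos)).tendsto
      rwa [φ.left_inv hos] at this
    filter_upwards [h2.eventually hoe, h2.eventually (hV₁o.mem_nhds hoV₁)] with y hy hyV hy0
    exact hy ((hV₁ _ hyV).2 hy0)⟩ (φ w) hwV' (by
      simp only [Function.comp_apply, φ.left_inv hws]; exact (hV₁ w hwV₁).1 hwD)
  simpa only [Function.comp_apply, φ.left_inv hws] using h1

theorem dense_smooth {D : Set X} (hD : IsPrimeDivisor E D) : D ⊆ closure (smoothLocus E D) := by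
  intro x hx
  obtain ⟨e, he⟩ := hD.2.1 x
  have h1 := mem_closure_iff_frequently.1 ((leq_dense_dif he).self_of_nhds hx)
  rw [mem_closure_iff_frequently]
  refine (h1.and_eventually he.eventually).mono ?_
  rintro y ⟨⟨hyD, hyd⟩, hye⟩
  exact ⟨hyD, e, hye, hyd⟩

/-- Analytic subsets not containing the prime divisor `D` are nowhere dense in `D`. -/
theorem dense_in_prime [FiniteDimensional ℂ E] [CompleteSpace W] {D A : Set X}
    (hD : IsPrimeDivisor E D)
    (hA : ∀ x ∈ D, ∃ θ : X → W, HolV E θ x ∧ ∀ᶠ z in 𝓝 x, z ∈ D → (z ∈ A ↔ θ z = 0))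
    (hne : ∃ z ∈ D, z ∉ A) : D ⊆ closure (D \ A) := by
  set S := smoothLocus E D with hS
  have hSD : S ⊆ D := fun x hx => hx.1
  set u : Set X := {z | ∀ᶠ w in 𝓝 z, w ∈ D → w ∈ A} with hu
  have huo : IsOpen u := isOpen_iff_mem_nhds.2 fun z hz => eventually_eventually_nhds.2 hz
  -- near a smooth point outside `u` there is no point of `u`
  have hloc : ∀ z ∈ S, z ∉ u → ∃ V : Set X, IsOpen V ∧ z ∈ V ∧ ∀ w ∈ V, w ∈ D → w ∉ u := by
    rintro z ⟨hzD, e, he, hd⟩ hzu
    obtain ⟨θ, hθ, hθA⟩ := hA z hzD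
    obtain ⟨V, hV, hzV, hVp⟩ := local_identM he hzD hd hθ
    obtain ⟨V₁, hV₁, hV₁o, hzV₁⟩ := _root_.eventually_nhds_iff.1 hθA
    refine ⟨V ∩ V₁, hV.inter hV₁o, ⟨hzV, hzV₁⟩, ?_⟩
    rintro w ⟨hwV, hwV₁⟩ hwD hwu
    apply hzu
    have h1 := hVp ⟨w, hwV, hwD, by
      filter_upwards [hwu, hV₁o.mem_nhds hwV₁] with y hy hyV hyD
      exact (hV₁ y hyV hyD).1 (hy hyD)⟩
    show ∀ᶠ w in 𝓝 z, w ∈ D → w ∈ A
    filter_upwards [hV.mem_nhds hzV, hV₁o.mem_nhds hzV₁] with y hyV hyV₁ hyD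
    exact (hV₁ y hyV₁ hyD).2 (h1 y hyV hyD)
  choose! Vf hVo hVm hVn using hloc
  set v : Set X := ⋃ z ∈ S \ u, Vf z with hv
  have hvo : IsOpen v := isOpen_biUnion fun z hz => hVo z hz.1 hz.2
  -- a smooth point of `D` outside `A`
  obtain ⟨s, hsS, hsu⟩ : ∃ s ∈ S, s ∉ u := by
    obtain ⟨z, hzD, hzA⟩ := hne
    obtain ⟨θ, hθ, hθA⟩ := hA z hzD
    have h0 : θ z ≠ 0 := fun h => hzA ((hθA.self_of_nhds hzD).2 h)
    have h1 : ∀ᶠ w in 𝓝 z, θ w ≠ 0 := hθ.continuousAt.eventually_ne h0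
    have h2 := mem_closure_iff_frequently.1 (dense_smooth hD hzD)
    obtain ⟨s, hsS, hs0, hsA⟩ := (h2.and_eventually (h1.and hθA)).exists
    refine ⟨s, hsS, fun hsu => hs0 ?_⟩
    exact (hsA (hSD hsS)).1 ((show ∀ᶠ w in 𝓝 s, w ∈ D → w ∈ A from hsu).self_of_nhds (hSD hsS))
  have hSu : ∀ z ∈ S, z ∉ u := by
    by_contra hcon
    push Not at hcon
    obtain ⟨z, hzS, hzu⟩ := hcon
    have hcov : S ⊆ u ∪ v := by
      intro w hw
      by_cases hwu : w ∈ u
      · exact Or.inl hwu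
      · exact Or.inr (mem_biUnion (⟨hw, hwu⟩ : w ∈ S \ u) (hVm w hw hwu))
    obtain ⟨w, hwS, hwu, hwv⟩ := hD.2.2.2 u v huo hvo hcov ⟨z, hzS, hzu⟩
      ⟨s, hsS, mem_biUnion (⟨hsS, hsu⟩ : s ∈ S \ u) (hVm s hsS hsu)⟩
    obtain ⟨y, hy, hwy⟩ := mem_iUnion₂.1 hwv
    exact hVn y hy.1 hy.2 w hwy (hSD hwS) hwu
  intro x hx
  have h1 := mem_closure_iff_frequently.1 (dense_smooth hD hx)
  have h2 : smoothLocus E D ⊆ closure (D \ A) := by
    intro z hz
    rw [mem_closure_iff_frequently]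
    intro hcon
    apply hSu z hz
    show ∀ᶠ w in 𝓝 z, w ∈ D → w ∈ A
    filter_upwards [hcon] with w hw hwD
    by_contra hwA
    exact hw ⟨hwD, hwA⟩
  exact closure_minimal h2 isClosed_closure (dense_smooth hD hx)

/-- There are no inclusions between different prime divisors. -/
theorem prime_eq_of_subset [FiniteDimensional ℂ E] {D D' : Set X} (hD : IsPrimeDivisor E D)
    (hD' : IsPrimeDivisor E D') (hsub : D ⊆ D') : D = D' := by
  refine Subset.antisymm hsub ?_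
  by_contra hcon
  rw [Set.not_subset] at hcon
  have hdense : D' ⊆ closure (D' \ D) := dense_in_prime (W := ℂ) hD' (fun x _ => by
    obtain ⟨e, he⟩ := hD.2.1 x
    exact ⟨e, he.holAt, he.eventually.mono fun z hz _ => hz.mem_iff⟩) hcon
  obtain ⟨x₀, hx₀D, -⟩ := hD.2.2.1
  obtain ⟨e, he⟩ := hD.2.1 x₀
  obtain ⟨e', he'⟩ := hD'.2.1 x₀
  set φ := chartAt E x₀ with hφ
  have hx₀ : x₀ ∈ φ.source := mem_chart_source E x₀
  set p : E → Prop := fun w => w ∈ φ.target ∧ (φ.symm w ∈ D ↔ e (φ.symm w) = 0) ∧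
    (φ.symm w ∈ D' ↔ e' (φ.symm w) = 0) with hp
  have hpev : ∀ᶠ w in 𝓝 (φ x₀), p w := by
    filter_upwards [φ.open_target.mem_nhds (φ.map_source hx₀),
      (tendsto_symm x₀).eventually he.eventually, (tendsto_symm x₀).eventually he'.eventually]
      with w hw1 hw2 hw3
    exact ⟨hw1, hw2.mem_iff, hw3.mem_iff⟩
  obtain ⟨η, r, ρ, c, M, hr, hρ, hc, h1, h2, h3⟩ := exists_radii (Den := e' ∘ φ.symm)
    (Num := e ∘ φ.symm) (x₀ := φ x₀) (rep_analytic he.holAt) (rep_analytic he'.holAt) (by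
      intro h
      apply leq_not_zero he'
      filter_upwards [(tendsto_chart x₀).eventually h, φ.open_source.mem_nhds hx₀] with z hz hzs
      have : e' (φ.symm (φ z)) = 0 := hz
      rwa [φ.left_inv hzs] at this) (p := fun w => ∀ᶠ y in 𝓝 w, p y)
      (eventually_eventually_nhds.2 hpev)
  have hpers : ∀ᶠ z in 𝓝 (φ x₀), ∃ t : ℂ, ‖t - 0‖ < ρ ∧ (e ∘ φ.symm) (z + t • η) = 0 := by
    refine zero_persists hρ (fun t ht => ?_) ?_ ?_
    · rw [sub_zero] at ht
      exact (h1 _ (mem_ball_self hr) t (by linarith)).mono fun y hy => hy.2.1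
    · simp only [zero_smul, add_zero, Function.comp_apply, φ.left_inv hx₀]
      exact he.mem_iff.1 hx₀D
    · intro t ht h0
      rw [sub_zero] at ht
      have h4 := h3 _ (mem_ball_self hr) t (by linarith) (by linarith)
      have h5 := (h1 _ (mem_ball_self hr) t (by linarith)).self_of_nhds.2.2.self_of_nhds
      have h6 := h5.2.2.1 (hsub (h5.2.1.2 h0))
      have h7 : (e' ∘ φ.symm) (φ x₀ + t • η) = 0 := h6
      rw [h7, norm_zero] at h4
      linarith
  obtain ⟨r', hr', hball⟩ := Metric.eventually_nhds_iff_ball.1 hpers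
  set r'' := min r r' with hr''
  have hr''0 : 0 < r'' := lt_min hr hr'
  have hsub1 : ball (φ x₀) r'' ⊆ ball (φ x₀) r := ball_subset_ball (min_le_left _ _)
  have hsub2 : ball (φ x₀) r'' ⊆ ball (φ x₀) r' := ball_subset_ball (min_le_right _ _)
  obtain ⟨z₁, hz₁, hg⟩ := good_line (P := e' ∘ φ.symm)
    (R := {w | (∀ᶠ y in 𝓝 w, p y) ∧ φ.symm w ∈ D' ∧ φ.symm w ∉ D}) (η := η) (x₀ := φ x₀)
    (r := r'') (ρ := ρ) (c := c) (M := M) hr''0 hρ hc
    (fun z hz t ht => (h1 z (hsub1 hz) t ht).mono fun y hy => hy.1)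
    (fun z hz t ht => h2 z (hsub1 hz) t ht)
    (fun z hz t ht => h3 z (hsub1 hz) t (by linarith) (by linarith))
    (by
      rintro w ⟨hw1, hw2, hw3⟩
      have hwt : w ∈ φ.target := hw1.self_of_nhds.1
      have h4 : ContinuousAt φ.symm w := φ.continuousAt_symm hwt
      have h5 : ∀ᶠ y in 𝓝 w, φ.symm y ∉ D := h4.eventually (hD.1.isOpen_compl.mem_nhds hw3)
      filter_upwards [eventually_eventually_nhds.2 hw1, h5] with y hy1 hy2 hy3
      exact ⟨hy1, hy1.self_of_nhds.2.2.2 hy3, hy2⟩)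
    (fun w hw => hw.1.self_of_nhds.2.2.1 hw.2.1)
    (by
      intro z hz t ht h0
      have h4 := (h1 z (hsub1 hz) t (by linarith)).self_of_nhds.2.2
      have hwt : z + t • η ∈ φ.target := h4.self_of_nhds.1
      have h5 := mem_closure_iff_frequently.1 (hdense (h4.self_of_nhds.2.2.2 h0))
      rw [mem_closure_iff_frequently]
      have hws : φ.symm (z + t • η) ∈ φ.source := φ.map_target hwt
      have h6 : Tendsto φ (𝓝 (φ.symm (z + t • η))) (𝓝 (z + t • η)) := by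
        have := (φ.continuousAt hws).tendsto
        rwa [φ.right_inv hwt] at this
      have h7 : ∃ᶠ w in 𝓝 (z + t • η), φ.symm w ∈ D' \ D := by
        refine h6.frequently ?_
        refine (h5.and_eventually (φ.open_source.mem_nhds hws)).mono ?_
        rintro y ⟨hy, hys⟩
        rwa [φ.left_inv hys]
      refine (h7.and_eventually (eventually_eventually_nhds.2 h4)).mono ?_
      rintro y ⟨⟨hy1, hy2⟩, hy3⟩
      exact ⟨hy3, hy1, hy2⟩)
  obtain ⟨t, ht, ht0⟩ := hball z₁ (hsub2 hz₁)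
  rw [sub_zero] at ht
  have h4 := (h1 z₁ (hsub1 hz₁) t (by linarith)).self_of_nhds.2.2.self_of_nhds
  have h5 : φ.symm (z₁ + t • η) ∈ D := h4.2.1.2 ht0
  have h6 : (e' ∘ φ.symm) (z₁ + t • η) = 0 := h4.2.2.1 (hsub h5)
  exact (hg t ht h6).2.2 h5

end

end Vale.Agent.P281.MF
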