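import Vale.Agent.P281.MF.Orb
import Vale.Agent.P281.MF.SecExt

open scoped Manifold ContDiff Topology
open Set Filter Metric Asymptotics

namespace Vale.Agent.P281.MF

open Vale.Agent.P281

set_option linter.unusedSectionVars false

universe u

section Est

variable {E E' V : Type} [NormedAddCommGroup E] [NormedSpace ℂ E] [FiniteDimensional ℂ E]
  [NormedAddCommGroup E'] [NormedSpace ℂ E'] [FiniteDimensional ℂ E']
  [NormedAddCommGroup V] [NormedSpace ℂ V] [FiniteDimensional ℂ V]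
variable {X Y : Type u} [TopologicalSpace X] [ChartedSpace E X] [IsManifold 𝓘(ℂ, E) ω X]
  [TopologicalSpace Y] [ChartedSpace E' Y] [IsManifold 𝓘(ℂ, E') ω Y]
variable {f : X → Y}

theorem bigO_one {h : X → ℂ} {y : X} (hh : ContinuousAt h y) :
    h =O[𝓝 y] (fun _ => (1 : ℂ)) := hh.tendsto.isBigO_one ℂ

theorem good_bound (hf : ∀ x, HolM E E' f x) {y : X} {G : Set Y} {κ : ℕ}
    {e w : X → ℂ} {g : Y → ℂ} (he : IsLocalEq E (f ⁻¹' G) e y) (hg : IsLocalEq E' G g (f y))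
    (hw : HolV E w y) (hw0 : w y ≠ 0) (heq : ∀ᶠ z in 𝓝 y, g (f z) = e z ^ κ * w z)
    {TX : Finset (Set X)} {eX : Set X → X → ℂ} (heX : ∀ D ∈ TX, IsLocalEq E D (eX D) y)
    {K : Set X → ℕ} (hK : f ⁻¹' G ∉ TX → K (f ⁻¹' G) = 0)
    {TY : Finset (Set Y)} {gY : Set Y → Y → ℂ} (hgY : ∀ G' ∈ TY, IsLocalEq E' G' (gY G') (f y))
    (hG : G ∈ TY) {k : Set Y → ℕ} (havoid : ∀ G' ∈ TY, k G' ≠ 0 → G' ≠ G → f y ∉ G')
    {A H : X → ℂ} (hA : ContinuousAt A y)
    (hH : ∃ C : ℝ, ∀ᶠ z in 𝓝 y, ‖H z‖ ≤ C * ‖e z‖ ^ (κ - 1)) {n : ℕ}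
    (hexp : κ * k G ≤ n * (κ - 1) + K (f ⁻¹' G)) :
    ∃ C : ℝ, ∀ᶠ z in 𝓝 y, ‖A z * H z ^ n * ∏ D ∈ TX, eX D z ^ K D‖ ≤
      C * ‖∏ G' ∈ TY, gY G' (f z) ^ k G'‖ := by
  classical
  have hfc : ContinuousAt f y := (hf y).continuousAt
  suffices h : (fun z => A z * H z ^ n * ∏ D ∈ TX, eX D z ^ K D) =O[𝓝 y]
      (fun z => ∏ G' ∈ TY, gY G' (f z) ^ k G') from isBigO_iff.1 h
  have hec : ContinuousAt e y := he.holAt.continuousAt
  have hH' : H =O[𝓝 y] fun z => e z ^ (κ - 1) := by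
    obtain ⟨C, hC⟩ := hH
    refine IsBigO.of_bound C ?_
    filter_upwards [hC] with z hz
    rwa [norm_pow]
  have h1 : (fun z => H z ^ n) =O[𝓝 y] fun z => e z ^ (n * (κ - 1)) := by
    have := hH'.pow n
    refine this.congr_right fun z => ?_
    rw [← pow_mul, mul_comm]
  have h2 : (fun z => ∏ D ∈ TX, eX D z ^ K D) =O[𝓝 y] fun z => e z ^ K (f ⁻¹' G) := by
    by_cases hD : f ⁻¹' G ∈ TX
    · obtain ⟨u, hu, hu0, hue⟩ := leq_unit he (heX _ hD)
      have h3 : eX (f ⁻¹' G) =O[𝓝 y] e := by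
        have h4 : eX (f ⁻¹' G) =ᶠ[𝓝 y] fun z => e z * u z := hue
        refine h4.trans_isBigO ?_
        simpa using (isBigO_refl e (𝓝 y)).mul (bigO_one hu.continuousAt)
      have h5 : (fun z => ∏ D ∈ TX.erase (f ⁻¹' G), eX D z ^ K D) =O[𝓝 y] fun _ => (1 : ℂ) := by
        refine bigO_one ?_
        exact (HolV.prod (E := E) fun D hD => ((heX D (Finset.mem_of_mem_erase hD)).holAt).pow
          (K D)).continuousAt
      have h6 := (h3.pow (K (f ⁻¹' G))).mul h5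
      refine (h6.congr_left fun z => ?_).congr_right fun z => mul_one _
      exact Finset.mul_prod_erase TX (fun D => eX D z ^ K D) hD
    · rw [hK hD]
      simp only [pow_zero]
      refine bigO_one ?_
      exact (HolV.prod (E := E) fun D hD => ((heX D hD).holAt).pow (K D)).continuousAt
  have h3 : (fun z => A z * H z ^ n * ∏ D ∈ TX, eX D z ^ K D) =O[𝓝 y]
      fun z => e z ^ (n * (κ - 1) + K (f ⁻¹' G)) := by
    have := ((bigO_one hA).mul h1).mul h2
    refine this.congr_right fun z => ?_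
    rw [one_mul, pow_add]
  have h4 : (fun z => e z ^ (n * (κ - 1) + K (f ⁻¹' G))) =O[𝓝 y]
      fun z => e z ^ (κ * k G) := by
    obtain ⟨r, hr⟩ := Nat.exists_eq_add_of_le hexp
    have h5 := (isBigO_refl (fun z => e z ^ (κ * k G)) (𝓝 y)).mul (bigO_one (hec.pow r))
    refine (h5.congr_left fun z => ?_).congr_right fun z => mul_one _
    rw [hr, pow_add]
    rfl
  obtain ⟨u, hu, hu0, hue⟩ := leq_unit hg (hgY G hG)
  have h5 : (fun z => e z ^ κ) =O[𝓝 y] fun z => gY G (f z) := by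
    have huc : ContinuousAt (fun z => (w z * u (f z))⁻¹) y :=
      ContinuousAt.inv₀ (hw.continuousAt.mul (ContinuousAt.comp hu.continuousAt hfc))
        (mul_ne_zero hw0 hu0)
    have h6 := (isBigO_refl (fun z => gY G (f z)) (𝓝 y)).mul (bigO_one huc)
    have h7 : (fun z => e z ^ κ) =ᶠ[𝓝 y] fun z => gY G (f z) * (w z * u (f z))⁻¹ := by
      filter_upwards [heq, hfc.eventually hue, hw.continuousAt.eventually_ne hw0,
        (ContinuousAt.comp hu.continuousAt hfc).eventually_ne hu0] with z h8 h9 h10 h11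
      have h12 : u (f z) ≠ 0 := h11
      rw [h9, h8]
      field_simp
    refine h7.trans_isBigO ?_
    simpa using h6
  have h6 : (fun z => e z ^ (κ * k G)) =O[𝓝 y] fun z => gY G (f z) ^ k G := by
    have := h5.pow (k G)
    refine this.congr_left fun z => ?_
    rw [← pow_mul]
  have h7 : (fun z => gY G (f z) ^ k G) =O[𝓝 y]
      fun z => ∏ G' ∈ TY, gY G' (f z) ^ k G' := by
    set R : X → ℂ := fun z => ∏ G' ∈ TY.erase G, gY G' (f z) ^ k G' with hR
    have hRc : ContinuousAt R y :=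
      (HolV.prod (E := E) fun G' hG' => (HolV.comp (E' := E') (hgY G'
        (Finset.mem_of_mem_erase hG')).holAt (hf y)).pow (k G')).continuousAt
    have hR0 : R y ≠ 0 := by
      refine Finset.prod_ne_zero_iff.2 fun G' hG' => ?_
      by_cases hk : k G' = 0
      · simp [hk]
      · refine pow_ne_zero _ fun h0 => ?_
        exact havoid G' (Finset.mem_of_mem_erase hG') hk (Finset.ne_of_mem_erase hG')
          ((hgY G' (Finset.mem_of_mem_erase hG')).mem_iff.2 h0)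
    have h8 := (isBigO_refl (fun z => ∏ G' ∈ TY, gY G' (f z) ^ k G') (𝓝 y)).mul
      (bigO_one (hRc.inv₀ hR0))
    have h9 : (fun z => gY G (f z) ^ k G) =ᶠ[𝓝 y]
        fun z => (∏ G' ∈ TY, gY G' (f z) ^ k G') * (R z)⁻¹ := by
      filter_upwards [hRc.eventually_ne hR0] with z hz
      rw [← Finset.mul_prod_erase TY (fun G' => gY G' (f z) ^ k G') hG]
      rw [mul_assoc, mul_inv_cancel₀ hz, mul_one]
    refine h9.trans_isBigO ?_
    simpa using h8
  exact ((h3.trans h4).trans h6).trans h7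

theorem dense_compl_prime {D : Set X} (hD : IsPrimeDivisor E D) : Dense Dᶜ := by
  rw [dense_iff_inter_open]
  intro O hO hne
  obtain ⟨x, hx, hxD⟩ := IsLocalEq.exists_notMem hD.2.1 hO hne
  exact ⟨x, hx, hxD⟩

variable {N : ℕ} {ι : Type u} {U : ι → Set X} {τ : ι → X → V →L[ℂ] E}

theorem section_up [Nonempty X] (hF : Frames E E' f N U τ) (e₀ : E ≃L[ℂ] (E' × V))
    (hf : ∀ x, HolM E E' f x) (hsurj : Function.Surjective f)
    (hpre : ∀ G : Set Y, IsPrimeDivisor E' G → IsPrimeDivisor E (f ⁻¹' G))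
    {κ : Set Y → ℕ} (hκ : ∀ G, IsPrimeDivisor E' G → 0 < κ G ∧ ∀ x ∈ f ⁻¹' G, ∃ e g w,
      IsLocalEq E (f ⁻¹' G) e x ∧ IsLocalEq E' G g (f x) ∧ HolAt E w x ∧ w x ≠ 0 ∧
      ∀ᶠ z in 𝓝 x, g (f z) = e z ^ (κ G) * w z)
    {K : Set X → ℕ} (hKfin : {D | K D ≠ 0}.Finite) (hKpr : ∀ D, K D ≠ 0 → IsPrimeDivisor E D)
    {k : Set Y → ℕ} (hkpr : ∀ G, k G ≠ 0 → IsPrimeDivisor E' G)
    {p : ℕ} (hexp : ∀ G, k G ≠ 0 → κ G * k G ≤ (N * p) * (κ G - 1) + K (f ⁻¹' G))
    {t : Y → ℂ} (ht : IsSection E' (fun (G : Set Y) z g => IsLocalEq E' G g z) (N * p) k t) :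
    ∃ σ : X → ℂ, IsSection E (fun (D : Set X) z g => IsLocalEq E D g z) (N * p) K σ ∧
      ∀ z, (∀ G, k G ≠ 0 → f z ∉ G) → σ z = t (f z) * JJ e₀ f N U τ z ^ p := by
  classical
  obtain ⟨x₀⟩ := ‹Nonempty X›
  have hkfin : {G | k G ≠ 0}.Finite := by
    obtain ⟨T, -, -, hT, -⟩ := ht (f x₀)
    exact T.finite_toSet.subset fun G hG => hT G hG
  have hfc : ∀ x, ContinuousAt f x := fun x => (hf x).continuousAt
  set Ω : Set X := {z | ∀ G, k G ≠ 0 → f z ∉ G} with hΩ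
  have hΩd : Dense Ω := by
    have h1 := (dense_compl_finite (T := (fun G => f ⁻¹' G) '' {G | k G ≠ 0})
      (hkfin.image (fun G => f ⁻¹' G)) (by
        rintro D ⟨G, hG, rfl⟩
        exact (hpre G (hkpr G hG)).1) (by
        rintro D ⟨G, hG, rfl⟩
        exact dense_compl_prime (hpre G (hkpr G hG)))).2
    refine h1.mono fun z hz => ?_
    intro G hG hzG
    exact hz _ ⟨G, hG, rfl⟩ hzG
  obtain ⟨σ', hσ', hsec⟩ := extend_section (E := E) (m := N * p) (K := K) hΩd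
    (σ := fun z => t (f z) * JJ e₀ f N U τ z ^ p) (by
    intro z₀
    obtain ⟨H, hH, hHJ, -, hHb⟩ := hF.local_J e₀ hf z₀
    obtain ⟨TY, gY, aY, hTY, hgY, haY, hevY⟩ := ht (f z₀)
    have heX : ∀ D, ∃ e : X → ℂ, K D ≠ 0 → IsLocalEq E D e z₀ := by
      intro D
      by_cases hD : K D = 0
      · exact ⟨fun _ => 0, fun h => absurd hD h⟩
      · obtain ⟨e, he⟩ := (hKpr D hD).2.1 z₀
        exact ⟨e, fun _ => he⟩
    choose eX heX using heX
    set TX : Finset (Set X) := hKfin.toFinset with hTX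
    have hTXm : ∀ D, D ∈ TX ↔ K D ≠ 0 := fun D => by rw [hTX, Set.Finite.mem_toFinset]; rfl
    have heX' : ∀ D ∈ TX, IsLocalEq E D (eX D) z₀ := fun D hD => heX D ((hTXm D).1 hD)
    set Num : X → ℂ := fun z => aY (f z) * H z ^ (N * p) * ∏ D ∈ TX, eX D z ^ K D with hNum
    set Den : X → ℂ := fun z => ∏ G ∈ TY, gY G (f z) ^ k G with hDen
    have haf : HolV E (fun z => aY (f z)) z₀ := HolV.comp (E' := E') haY (hf z₀)
    have hNumh : HolV E Num z₀ :=
      (haf.mul (hH.pow (N * p))).mul (HolV.prod fun D hD => ((heX' D hD).holAt).pow (K D))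
    have hDenh : HolV E Den z₀ :=
      HolV.prod fun G hG => (HolV.comp (E' := E') (hgY G hG).holAt (hf z₀)).pow (k G)
    have hgYe : ∀ᶠ z in 𝓝 z₀, ∀ G ∈ TY, IsLocalEq E' G (gY G) (f z) := by
      rw [Filter.eventually_all_finset]
      intro G hG
      exact (hfc z₀).eventually (hgY G hG).eventually
    have heXe : ∀ᶠ z in 𝓝 z₀, ∀ D ∈ TX, IsLocalEq E D (eX D) z := by
      rw [Filter.eventually_all_finset]
      intro D hD
      exact (heX' D hD).eventually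
    have hDenΩ : ∀ᶠ z in 𝓝 z₀, z ∈ Ω → Den z ≠ 0 := by
      filter_upwards [hgYe] with z hz hzΩ
      refine Finset.prod_ne_zero_iff.2 fun G hG => ?_
      by_cases hk : k G = 0
      · simp [hk]
      · exact pow_ne_zero _ fun h0 => hzΩ G hk ((hz G hG).mem_iff.2 h0)
    have hne : ¬ ∀ᶠ z in 𝓝 z₀, Den z = 0 := by
      intro hcon
      obtain ⟨z, hz, hzΩ⟩ := mem_closure_iff_nhds.1 (hΩd z₀) _ (hcon.and hDenΩ)
      exact hz.2 hzΩ hz.1
    obtain ⟨Q, hQ, hQe⟩ := extendM hNumh hDenh hne (by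
      filter_upwards [eventually_eventually_nhds.2 (hgYe.and (heXe.and hHb)), hgYe,
        eventually_eventually_nhds.2 haf.eventually] with z hz hgz hza hz0
      obtain ⟨G, hG, hGz⟩ := Finset.prod_eq_zero_iff.1 hz0
      have hkG : k G ≠ 0 := fun h => by rw [h, pow_zero] at hGz; exact one_ne_zero hGz
      have hzG : z ∈ f ⁻¹' G := (hgz G hG).mem_iff.2 (pow_eq_zero_iff hkG |>.1 hGz)
      have hGp := hkpr G hkG
      have hrod := ROD_good hf hsurj hGp (hpre G hGp) hkfin (fun G' hG' => hkpr G' hG')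
      have h1 := mem_closure_iff_frequently.1 (hrod.2.1 hzG)
      rw [mem_closure_iff_frequently]
      refine (h1.and_eventually (hz.and hza)).mono ?_
      rintro y ⟨⟨hys, hyav⟩, ⟨hyg, hye, hyb⟩, hya⟩
      have hyG : f y ∈ G := hys.1
      obtain ⟨hκ0, hκx⟩ := hκ G hGp
      obtain ⟨e, g, w, he, hg, hw, hw0, heq⟩ := hκx y hyG
      have hdg : dif E' g (f y) ≠ 0 := by
        obtain ⟨-, g', hg', hd'⟩ := hys
        exact leq_dif_ne hg' hg hyG hd'
      refine ⟨?_, ?_⟩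
      · show ∏ G ∈ TY, gY G (f y) ^ k G = 0
        refine Finset.prod_eq_zero hG ?_
        rw [(hyg G hG).mem_iff.1 hyG, zero_pow hkG]
      · refine good_bound hf he hg hw hw0 heq hye (K := K) ?_ hyg hG ?_ hya.continuousAt
          (hyb g e w (κ G) hg.holAt hdg he.holAt hw heq hκ0) (hexp G hkG)
        · intro h
          by_contra h0
          exact h ((hTXm _).2 h0)
        · intro G' _ hk' hne'
          exact hyav G' hk' hne')
    refine ⟨TX, eX, Q, fun D hD => (hTXm D).2 hD, heX', hQ, ?_⟩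
    filter_upwards [hQe, hDenΩ, hHJ, (hfc z₀).eventually hevY] with z h1 h2 h3 h4 hzΩ _
    have h5 := h2 hzΩ
    have h6 := h4 h5
    have h7 : t (f z) * Den z = aY (f z) * jac E' (chartAt E' (f z₀)) (f z) ^ (N * p) := h6
    apply mul_left_cancel₀ h5
    calc Den z * (t (f z) * JJ e₀ f N U τ z ^ p * ∏ D ∈ TX, eX D z ^ K D)
        = (t (f z) * Den z) * JJ e₀ f N U τ z ^ p * ∏ D ∈ TX, eX D z ^ K D := by ring
      _ = aY (f z) * (jac E' (chartAt E' (f z₀)) (f z) ^ N * JJ e₀ f N U τ z) ^ p *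
            ∏ D ∈ TX, eX D z ^ K D := by
          rw [h7, mul_pow, pow_mul]; ring
      _ = Num z * jac E (chartAt E z₀) z ^ (N * p) := by
          rw [h3, hNum, ← pow_mul, mul_pow]; ring
      _ = Den z * (Q z * jac E (chartAt E z₀) z ^ (N * p)) := by rw [h1]; ring)
  exact ⟨σ', hsec, fun z hz => hσ' z hz⟩

end Est

end Vale.Agent.P281.MF
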