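import Vale.Agent.P281.MF.Hol

open Set Filter Metric Topology

namespace Vale.Agent.P281.MF

/-- A holomorphic function with many zeros in a small disc is small there. -/
theorem zeros_bound {ρ : ℝ} (hρ : 0 < ρ) : ∀ (n : ℕ) (S : Finset ℂ), S.card = n →
    ∀ (f : ℂ → ℂ) (M : ℝ), DifferentiableOn ℂ f (ball 0 (6 * ρ)) →
    (∀ t : ℂ, ‖t‖ ≤ 5 * ρ → ‖f t‖ ≤ M) → (∀ t ∈ S, ‖t‖ ≤ ρ ∧ f t = 0) →
    ∀ t : ℂ, ‖t‖ ≤ ρ → ‖f t‖ ≤ M / 2 ^ n := by
  intro n
  induction n with
  | zero =>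
    intro S _ f M _ hM _ t ht
    simpa using hM t (by linarith)
  | succ n ih =>
    intro S hS f M hf hM hz t ht
    obtain ⟨a, haS⟩ : S.Nonempty := by rw [← Finset.card_pos]; omega
    obtain ⟨ha1, ha0⟩ := hz a haS
    have hamem : ball (0 : ℂ) (6 * ρ) ∈ 𝓝 a :=
      isOpen_ball.mem_nhds (by rw [mem_ball_zero_iff]; linarith)
    set g := dslope f a with hg
    have hgd : DifferentiableOn ℂ g (ball 0 (6 * ρ)) := (Complex.differentiableOn_dslope hamem).2 hf
    have hgeq : ∀ t, f t = (t - a) * g t := by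
      intro t
      have := sub_smul_dslope f a t
      rw [ha0, sub_zero, smul_eq_mul] at this
      exact this.symm
    have hgM : ∀ t : ℂ, ‖t‖ ≤ 5 * ρ → ‖g t‖ ≤ M / (4 * ρ) := by
      intro t ht
      have hdc : DiffContOnCl ℂ g (ball 0 (5 * ρ)) := by
        refine DifferentiableOn.diffContOnCl ?_
        refine hgd.mono ?_
        rw [closure_ball _ (by positivity)]
        exact closedBall_subset_ball (by linarith)
      refine Complex.norm_le_of_forall_mem_frontier_norm_le isBounded_ball hdc ?_ ?_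
      · intro z hz
        rw [frontier_ball _ (by positivity), mem_sphere_zero_iff_norm] at hz
        have h1 := hgeq z
        have h2 : 4 * ρ ≤ ‖z - a‖ := by
          have := norm_sub_norm_le z a
          linarith
        have h3 : ‖f z‖ = ‖z - a‖ * ‖g z‖ := by rw [h1, norm_mul]
        have h4 := hM z hz.le
        rw [le_div_iff₀ (by positivity)]
        have h5 : 0 ≤ ‖g z‖ := norm_nonneg _
        nlinarith
      · rw [closure_ball _ (by positivity), mem_closedBall_zero_iff]; exact ht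
    have hM0 : 0 ≤ M := (norm_nonneg _).trans (hM 0 (by simp; positivity))
    have key := ih (S.erase a) (by rw [Finset.card_erase_of_mem haS, hS]; rfl) g (M / (4 * ρ)) hgd hgM
      (fun b hb => by
        obtain ⟨hba, hbS⟩ := Finset.mem_erase.1 hb
        refine ⟨(hz b hbS).1, ?_⟩
        have h1 := hgeq b
        rw [(hz b hbS).2] at h1
        have h2 : b - a ≠ 0 := sub_ne_zero.2 hba
        exact (mul_eq_zero.1 h1.symm).resolve_left h2) t ht
    have h6 : ‖t - a‖ ≤ 2 * ρ := by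
      have := norm_sub_le t a
      linarith
    rw [hgeq t, norm_mul]
    have h7 : 0 ≤ ‖g t‖ := norm_nonneg _
    calc ‖t - a‖ * ‖g t‖ ≤ (2 * ρ) * (M / (4 * ρ) / 2 ^ n) := by gcongr
      _ = M / 2 ^ (n + 1) := by field_simp; ring

variable {E : Type*} [NormedAddCommGroup E] [NormedSpace ℂ E]

/-- persistence of zeros. -/
theorem zero_persists {P : E → ℂ} {η : E} {z₀ : E} {t₀ : ℂ} {δ : ℝ} (hδ : 0 < δ)
    (hP : ∀ t : ℂ, ‖t - t₀‖ ≤ δ → ∀ᶠ y in 𝓝 (z₀ + t • η), DifferentiableAt ℂ P y)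
    (h0 : P (z₀ + t₀ • η) = 0) (hne : ∀ t : ℂ, ‖t - t₀‖ = δ → P (z₀ + t • η) ≠ 0) :
    ∀ᶠ z in 𝓝 z₀, ∃ t : ℂ, ‖t - t₀‖ < δ ∧ P (z + t • η) = 0 := by
  have hcont : Continuous fun p : E × ℂ => p.1 + p.2 • η := by fun_prop
  -- the minimum on the circle
  obtain ⟨c, hc, hcmin⟩ : ∃ c > 0, ∀ t : ℂ, ‖t - t₀‖ = δ → c ≤ ‖P (z₀ + t • η)‖ := by
    have hco : IsCompact (sphere t₀ δ) := isCompact_sphere _ _
    have hconP : ContinuousOn (fun t : ℂ => ‖P (z₀ + t • η)‖) (sphere t₀ δ) := by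
      intro t ht
      rw [mem_sphere_iff_norm] at ht
      have h1 : ContinuousAt P (z₀ + t • η) := (hP t ht.le).self_of_nhds.continuousAt
      have h2 : ContinuousAt (fun t : ℂ => z₀ + t • η) t := by fun_prop
      exact (ContinuousAt.comp (g := P) (f := fun t : ℂ => z₀ + t • η) h1 h2).norm.continuousWithinAt
    have hnes : (sphere t₀ δ).Nonempty := NormedSpace.sphere_nonempty.2 hδ.le
    obtain ⟨t₁, ht₁, hmin⟩ := hco.exists_isMinOn hnes hconP
    refine ⟨‖P (z₀ + t₁ • η)‖, norm_pos_iff.2 (hne t₁ (by rwa [mem_sphere_iff_norm] at ht₁)), ?_⟩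
    intro t ht
    exact hmin (by rwa [mem_sphere_iff_norm] : t ∈ sphere t₀ δ)
  have hev1 : ∀ᶠ z in 𝓝 z₀, ∀ t ∈ sphere t₀ δ, c / 2 < ‖P (z + t • η)‖ := by
    refine (isCompact_sphere t₀ δ).eventually_forall_of_forall_eventually fun t ht => ?_
    rw [mem_sphere_iff_norm] at ht
    have h1 : ContinuousAt P (z₀ + t • η) := (hP t ht.le).self_of_nhds.continuousAt
    have h2 : ContinuousAt (fun p : E × ℂ => ‖P (p.1 + p.2 • η)‖) (z₀, t) :=
      (ContinuousAt.comp (g := P) (f := fun p : E × ℂ => p.1 + p.2 • η) (x := (z₀, t)) h1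
        hcont.continuousAt).norm
    exact h2.eventually_const_lt (by have := hcmin t ht; simp only; linarith)
  have hev2 : ∀ᶠ z in 𝓝 z₀, ‖P (z + t₀ • η)‖ < c / 2 := by
    have h1 : ContinuousAt P (z₀ + t₀ • η) :=
      (hP t₀ (by simpa using hδ.le)).self_of_nhds.continuousAt
    have h2 : ContinuousAt (fun z : E => ‖P (z + t₀ • η)‖) z₀ :=
      (ContinuousAt.comp (g := P) (f := fun z : E => z + t₀ • η) h1 (by fun_prop)).norm
    exact h2.eventually_lt_const (by simp only [h0, norm_zero]; linarith)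
  have hev3 : ∀ᶠ z in 𝓝 z₀, ∀ t ∈ closedBall t₀ δ, DifferentiableAt ℂ P (z + t • η) := by
    refine (isCompact_closedBall t₀ δ).eventually_forall_of_forall_eventually fun t ht => ?_
    rw [mem_closedBall_iff_norm] at ht
    have := hP t ht
    exact (hcont.continuousAt (x := (z₀, t))).eventually this
  filter_upwards [hev1, hev2, hev3] with z h1 h2 h3
  by_contra hcon
  push Not at hcon
  have hnz : ∀ t ∈ closedBall t₀ δ, P (z + t • η) ≠ 0 := by
    intro t ht h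
    rcases (mem_closedBall_iff_norm.1 ht).lt_or_eq with h4 | h4
    · exact hcon t h4 h
    · have := h1 t (mem_sphere_iff_norm.2 h4)
      rw [h, norm_zero] at this
      linarith
  have hd : DiffContOnCl ℂ (fun t : ℂ => (P (z + t • η))⁻¹) (ball t₀ δ) := by
    refine DifferentiableOn.diffContOnCl ?_
    rw [closure_ball _ hδ.ne']
    intro t ht
    have h5 : DifferentiableAt ℂ (fun t : ℂ => P (z + t • η)) t :=
      DifferentiableAt.comp (g := P) (f := fun t : ℂ => z + t • η) t (h3 t ht) (by fun_prop)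
    exact (h5.inv (hnz t ht)).differentiableWithinAt
  have h6 := Complex.norm_le_of_forall_mem_frontier_norm_le (C := 2 / c) isBounded_ball hd
    (fun t ht => by
      rw [frontier_ball _ hδ.ne'] at ht
      have := h1 t ht
      rw [norm_inv, inv_le_comm₀ (by linarith) (by positivity), inv_div]
      exact this.le) (z := t₀) (subset_closure (mem_ball_self hδ))
  rw [norm_inv, inv_le_comm₀ (norm_pos_iff.2 (hnz t₀ (mem_closedBall_self hδ.le))) (by positivity),
    inv_div] at h6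
  linarith

/-- Good lines: on some line all zeros of `P` lie in the dense open part `R` of the zero set. -/
theorem good_line {P : E → ℂ} {R : Set E} {η x₀ : E} {r ρ c M : ℝ} (hr : 0 < r) (hρ : 0 < ρ)
    (hc : 0 < c)
    (hP : ∀ z ∈ ball x₀ r, ∀ t : ℂ, ‖t‖ < 6 * ρ → ∀ᶠ y in 𝓝 (z + t • η), DifferentiableAt ℂ P y)
    (hM : ∀ z ∈ ball x₀ r, ∀ t : ℂ, ‖t‖ ≤ 5 * ρ → ‖P (z + t • η)‖ ≤ M)
    (hc' : ∀ z ∈ ball x₀ r, ∀ t : ℂ, ‖t‖ = ρ → c ≤ ‖P (z + t • η)‖)
    (hRo : ∀ x ∈ R, ∀ᶠ y in 𝓝 x, P y = 0 → y ∈ R) (hR0 : ∀ x ∈ R, P x = 0)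
    (hRd : ∀ z ∈ ball x₀ r, ∀ t : ℂ, ‖t‖ < ρ → P (z + t • η) = 0 → z + t • η ∈ closure R) :
    ∃ z₁ ∈ ball x₀ r, ∀ t : ℂ, ‖t‖ < ρ → P (z₁ + t • η) = 0 → z₁ + t • η ∈ R := by
  classical
  have hM0 : 0 ≤ M := (norm_nonneg _).trans (hM x₀ (mem_ball_self hr) 0 (by simp; positivity))
  obtain ⟨K, hK⟩ : ∃ K : ℕ, M / 2 ^ K < c := by
    obtain ⟨K, hK⟩ := pow_unbounded_of_one_lt (M / c) (one_lt_two)
    refine ⟨K, ?_⟩
    rw [div_lt_iff₀ (by positivity)]
    rw [div_lt_iff₀ hc] at hK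
    linarith
  have hcard : ∀ z ∈ ball x₀ r, ∀ S : Finset ℂ, (∀ t ∈ S, ‖t‖ < ρ ∧ P (z + t • η) = 0) →
      S.card ≤ K := by
    intro z hz S hS
    by_contra hcon
    push Not at hcon
    have h1 := zeros_bound hρ S.card S rfl (fun t => P (z + t • η)) M (by
      intro t ht
      rw [mem_ball_zero_iff] at ht
      exact (DifferentiableAt.comp (g := P) (f := fun t : ℂ => z + t • η) t
        (hP z hz t ht).self_of_nhds (by fun_prop)).differentiableWithinAt) (hM z hz)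
      (fun t ht => ⟨(hS t ht).1.le, (hS t ht).2⟩) (ρ : ℂ) (by
        rw [Complex.norm_real, Real.norm_of_nonneg hρ.le])
    have h2 := hc' z hz (ρ : ℂ) (by rw [Complex.norm_real, Real.norm_of_nonneg hρ.le])
    have h3 : M / 2 ^ S.card ≤ M / 2 ^ K := by
      gcongr
      · exact one_le_two
    have h1' : ‖P (z + (ρ : ℂ) • η)‖ ≤ M / 2 ^ S.card := h1
    linarith
  set 𝒲 : Set ℕ := {w | ∃ z ∈ ball x₀ r, ∃ S T : Finset ℂ, T ⊆ S ∧
    (∀ t ∈ S, ‖t‖ < ρ ∧ P (z + t • η) = 0) ∧ (∀ t ∈ T, z + t • η ∈ R) ∧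
    w = (K + 1) * S.card + T.card} with h𝒲
  have hne : 𝒲.Nonempty := ⟨0, x₀, mem_ball_self hr, ∅, ∅, by simp⟩
  have hbdd : BddAbove 𝒲 := by
    refine ⟨(K + 1) * K + K, ?_⟩
    rintro w ⟨z, hz, S, T, hTS, hS, hT, rfl⟩
    have h1 := hcard z hz S hS
    have h2 := (Finset.card_le_card hTS).trans h1
    gcongr
  obtain ⟨z, hz, S, T, hTS, hS, hT, hw⟩ := Nat.sSup_mem hne hbdd
  have hmax : ∀ w ∈ 𝒲, w ≤ (K + 1) * S.card + T.card := fun w hw' => hw ▸ le_csSup hbdd hw'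
  refine ⟨z, hz, ?_⟩
  by_contra hcon
  push Not at hcon
  obtain ⟨t₁, ht₁, ht₁0, ht₁R⟩ := hcon
  have ht₁S : t₁ ∈ S := by
    by_contra hn
    have h1 := hmax ((K + 1) * (insert t₁ S).card + T.card) ⟨z, hz, insert t₁ S, T,
      hTS.trans (Finset.subset_insert _ _), fun t ht => by
        rcases Finset.mem_insert.1 ht with rfl | h
        · exact ⟨ht₁, ht₁0⟩
        · exact hS t h, hT, rfl⟩
    rw [Finset.card_insert_of_notMem hn] at h1
    nlinarith
  have ht₁T : t₁ ∉ T := fun h => ht₁R (hT t₁ h)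
  -- the zeros are finite in number
  set Z : Set ℂ := {t | ‖t‖ < ρ ∧ P (z + t • η) = 0} with hZ
  have hZf : Z.Finite := by
    by_contra hinf
    obtain ⟨S', hS', hS'c⟩ := Set.Infinite.exists_subset_card_eq hinf (K + 1)
    have := hcard z hz S' (fun t ht => hS' ht)
    omega
  have hε : ∀ s ∈ T, ∃ ε > 0, ∀ (z' : E) (t : ℂ), ‖z' - z‖ < ε → ‖t - s‖ < ε →
      P (z' + t • η) = 0 → z' + t • η ∈ R := by
    intro s hs
    have h1 := hRo _ (hT s hs)
    have hcont : Continuous fun p : E × ℂ => p.1 + p.2 • η := by fun_prop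
    have h2 : ∀ᶠ p : E × ℂ in 𝓝 (z, s), P (p.1 + p.2 • η) = 0 → p.1 + p.2 • η ∈ R :=
      (hcont.continuousAt (x := (z, s))).eventually h1
    obtain ⟨ε, hε, h3⟩ := Metric.eventually_nhds_iff_ball.1 h2
    refine ⟨ε, hε, fun z' t hz' ht => h3 (z', t) ?_⟩
    rw [mem_ball, Prod.dist_eq, max_lt_iff, dist_eq_norm, dist_eq_norm]
    exact ⟨hz', ht⟩
  choose! ε hε0 hε using hε
  have hδ : ∀ᶠ δ : ℝ in 𝓝 0, (∀ s ∈ S, ‖s‖ + δ < ρ) ∧
      (∀ s ∈ S, ∀ s' ∈ hZf.toFinset, s ≠ s' → 2 * δ < ‖s - s'‖) ∧ ∀ s ∈ T, δ < ε s := by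
    refine Filter.Eventually.and ?_ (Filter.Eventually.and ?_ ?_)
    · rw [Filter.eventually_all_finset]
      intro s hs
      have h1 : ContinuousAt (fun δ : ℝ => ‖s‖ + δ) 0 := by fun_prop
      exact h1.eventually_lt_const (by simpa using (hS s hs).1)
    · rw [Filter.eventually_all_finset]
      intro s hs
      rw [Filter.eventually_all_finset]
      intro s' hs'
      by_cases hss : s = s'
      · exact Filter.Eventually.of_forall fun δ h => absurd hss h
      · have h1 : ContinuousAt (fun δ : ℝ => 2 * δ) 0 := by fun_prop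
        filter_upwards [h1.eventually_lt_const (u := ‖s - s'‖)
          (by simpa using sub_ne_zero.2 hss)] with δ hδ _ using hδ
    · rw [Filter.eventually_all_finset]
      intro s hs
      exact eventually_lt_nhds (hε0 s hs)
  obtain ⟨δ, ⟨hδ1, hδ2, hδ3⟩, hδ0⟩ := ((hδ.filter_mono nhdsWithin_le_nhds).and
    (self_mem_nhdsWithin : Ioi (0 : ℝ) ∈ 𝓝[>] 0)).exists
  have hδ0 : 0 < δ := hδ0
  have hpers : ∀ᶠ z' in 𝓝 z, ∀ s ∈ S, ∃ t : ℂ, ‖t - s‖ < δ ∧ P (z' + t • η) = 0 := by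
    rw [Filter.eventually_all_finset]
    intro s hs
    have hle : ∀ t : ℂ, ‖t - s‖ ≤ δ → ‖t‖ < ρ := by
      intro t ht
      have h1 := norm_add_le (t - s) s
      rw [sub_add_cancel] at h1
      have := hδ1 s hs
      linarith
    refine zero_persists hδ0 (fun t ht => hP z hz t (by linarith [hle t ht])) (hS s hs).2 ?_
    intro t ht h0
    have h1 : t ∈ hZf.toFinset := by
      rw [Set.Finite.mem_toFinset]
      exact ⟨hle t ht.le, h0⟩
    have h2 : s ≠ t := by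
      rintro rfl
      rw [sub_self, norm_zero] at ht
      linarith
    have h3 := hδ2 s hs t h1 h2
    rw [norm_sub_rev, ht] at h3
    linarith
  have hnear : ∀ᶠ z' in 𝓝 z, z' ∈ ball x₀ r ∧ ∀ s ∈ T, ‖z' - z‖ < ε s := by
    refine Filter.Eventually.and (isOpen_ball.mem_nhds hz) ?_
    rw [Filter.eventually_all_finset]
    intro s hs
    have h1 : ContinuousAt (fun z' : E => ‖z' - z‖) z := by fun_prop
    exact h1.eventually_lt_const (by simpa using hε0 s hs)
  have hq : ∃ᶠ q in 𝓝 (z + t₁ • η), q ∈ R := mem_closure_iff_frequently.1 (hRd z hz t₁ ht₁ ht₁0)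
  have hev : ∀ᶠ q in 𝓝 (z + t₁ • η), (∀ s ∈ S, ∃ t : ℂ, ‖t - s‖ < δ ∧
      P ((q - t₁ • η) + t • η) = 0) ∧ (q - t₁ • η) ∈ ball x₀ r ∧
      ∀ s ∈ T, ‖(q - t₁ • η) - z‖ < ε s := by
    have h1 : ContinuousAt (fun q : E => q - t₁ • η) (z + t₁ • η) := by fun_prop
    have h2 := h1.tendsto
    rw [add_sub_cancel_right] at h2
    exact h2.eventually (hpers.and hnear)
  obtain ⟨q, hqR, hq1, hq2, hq3⟩ := (hq.and_eventually hev).exists
  set z' := q - t₁ • η with hz'
  choose! φ hφ1 hφ2 using hq1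
  set ψ : ℂ → ℂ := fun s => if s = t₁ then t₁ else φ s with hψ
  have hψ1 : ∀ s ∈ S, ‖ψ s - s‖ < δ ∧ P (z' + ψ s • η) = 0 := by
    intro s hs
    by_cases h : s = t₁
    · subst h
      simp only [hψ, if_true, sub_self, norm_zero]
      refine ⟨hδ0, ?_⟩
      rw [hz', sub_add_cancel]
      exact hR0 q hqR
    · simp only [hψ, if_neg h]
      exact ⟨hφ1 s hs, hφ2 s hs⟩
  have hinj : Set.InjOn ψ (S : Set ℂ) := by
    intro s hs s' hs' hss
    by_contra hne'
    have h1 := hδ2 s hs s' (by rw [Set.Finite.mem_toFinset]; exact hS s' hs') hne'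
    have h2 := (hψ1 s hs).1
    have h3 := (hψ1 s' hs').1
    have h4 : ‖s - s'‖ ≤ ‖ψ s - s‖ + ‖ψ s' - s'‖ := by
      calc ‖s - s'‖ = ‖(ψ s' - s') - (ψ s - s)‖ := by rw [hss]; congr 1; ring
        _ ≤ ‖ψ s' - s'‖ + ‖ψ s - s‖ := norm_sub_le _ _
        _ = _ := add_comm _ _
    linarith
  have hTS' : insert t₁ T ⊆ S := Finset.insert_subset ht₁S hTS
  have h1 := hmax ((K + 1) * (S.image ψ).card + ((insert t₁ T).image ψ).card)
    ⟨z', hq2, S.image ψ, (insert t₁ T).image ψ, Finset.image_subset_image hTS', fun t ht => by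
      obtain ⟨s, hs, rfl⟩ := Finset.mem_image.1 ht
      refine ⟨?_, (hψ1 s hs).2⟩
      have h1 := norm_add_le (ψ s - s) s
      rw [sub_add_cancel] at h1
      have := hδ1 s hs
      linarith [(hψ1 s hs).1], fun t ht => by
      obtain ⟨s, hs, rfl⟩ := Finset.mem_image.1 ht
      rcases Finset.mem_insert.1 hs with rfl | hsT
      · have : ψ s = s := by simp [hψ]
        rw [this, hz', sub_add_cancel]
        exact hqR
      · exact hε s hsT z' (ψ s) (hq3 s hsT) ((hψ1 s (hTS hsT)).1.trans (hδ3 s hsT))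
          (hψ1 s (hTS hsT)).2, rfl⟩
  rw [Finset.card_image_of_injOn hinj, Finset.card_image_of_injOn
    (hinj.mono (by exact_mod_cast hTS')), Finset.card_insert_of_notMem ht₁T] at h1
  omega

end Vale.Agent.P281.MF
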