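import Vale.Agent.P281.MF.Ext

open Set Filter Metric Topology

namespace Vale.Agent.P281.MF

/-- removable singularities at finitely many points -/
theorem extend_finite {U : Set ℂ} (hU : IsOpen U) (S : Finset ℂ) : ∀ f : ℂ → ℂ,
    DifferentiableOn ℂ f (U \ S) → (∀ s ∈ S, s ∈ U → ∃ C : ℝ, ∀ᶠ t in 𝓝[≠] s, ‖f t‖ ≤ C) →
    ∃ g : ℂ → ℂ, DifferentiableOn ℂ g U ∧ ∀ t ∉ S, g t = f t := by
  classical
  induction S using Finset.induction_on with
  | empty =>
    intro f hf _
    exact ⟨f, by simpa using hf, fun t _ => rfl⟩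
  | insert a S ha ih =>
    intro f hf hb
    by_cases haU : a ∈ U
    · obtain ⟨C, hC⟩ := hb a (Finset.mem_insert_self _ _) haU
      have hopen : IsOpen (U \ (S : Set ℂ)) := hU.sdiff S.finite_toSet.isClosed
      have haUS : a ∈ U \ (S : Set ℂ) := ⟨haU, by simpa using ha⟩
      obtain ⟨s, hs, hsC⟩ : ∃ s : Set ℂ, s ∈ 𝓝 a ∧ (s ⊆ U \ S) ∧ ∀ t ∈ s \ {a}, ‖f t‖ ≤ C := by
        obtain ⟨s, hs, h⟩ := mem_nhdsWithin_iff_exists_mem_nhds_inter.1 hC
        refine ⟨s ∩ (U \ S), inter_mem hs (hopen.mem_nhds haUS), inter_subset_right, ?_⟩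
        rintro t ⟨⟨h1, h2⟩, h3⟩
        exact h ⟨h1, h3⟩
      have hd : DifferentiableOn ℂ (Function.update f a (limUnder (𝓝[≠] a) f)) s := by
        refine Complex.differentiableOn_update_limUnder_of_bddAbove hs (hf.mono ?_) ?_
        · rintro t ⟨h1, h2⟩
          refine ⟨(hsC.1 h1).1, ?_⟩
          simp only [Finset.coe_insert, mem_insert_iff, not_or]
          exact ⟨h2, (hsC.1 h1).2⟩
        · refine ⟨C, ?_⟩
          rintro _ ⟨t, ht, rfl⟩
          exact hsC.2 t ht
      obtain ⟨g, hg1, hg2⟩ := ih (Function.update f a (limUnder (𝓝[≠] a) f)) (by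
        intro t ht
        by_cases hta : t = a
        · subst hta
          exact (hd.differentiableAt hs).differentiableWithinAt
        · have h1 : DifferentiableAt ℂ f t := by
            have hop : IsOpen (U \ ((insert a S : Finset ℂ) : Set ℂ)) :=
              hU.sdiff (Finset.finite_toSet _).isClosed
            refine hf.differentiableAt (hop.mem_nhds ⟨ht.1, ?_⟩)
            simp only [Finset.coe_insert, mem_insert_iff, not_or]
            exact ⟨hta, ht.2⟩
          have h2 : Function.update f a (limUnder (𝓝[≠] a) f) =ᶠ[𝓝 t] f := by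
            filter_upwards [isOpen_ne.mem_nhds hta] with x hx
            exact Function.update_of_ne hx _ _
          exact (h1.congr_of_eventuallyEq h2).differentiableWithinAt) (by
        intro s' hs' hs'U
        obtain ⟨C', hC'⟩ := hb s' (Finset.mem_insert_of_mem hs') hs'U
        refine ⟨C', ?_⟩
        have hne : s' ≠ a := fun h => ha (h ▸ hs')
        filter_upwards [hC', nhdsWithin_le_nhds (isOpen_ne.mem_nhds hne)] with t ht hta
        rwa [Function.update_of_ne hta])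
      refine ⟨g, hg1, fun t ht => ?_⟩
      rw [Finset.mem_insert, not_or] at ht
      rw [hg2 t ht.2, Function.update_of_ne ht.1]
    · obtain ⟨g, hg1, hg2⟩ := ih f (hf.mono (by
        rintro t ⟨h1, h2⟩
        refine ⟨h1, ?_⟩
        simp only [Finset.coe_insert, mem_insert_iff, not_or]
        exact ⟨fun h => haU (h ▸ h1), h2⟩)) (fun s hs => hb s (Finset.mem_insert_of_mem hs))
      refine ⟨g, hg1, fun t ht => hg2 t ?_⟩
      rw [Finset.mem_insert, not_or] at ht
      exact ht.2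

/-- the zeros in a small disc are finite in number. -/
theorem finite_zeros {f : ℂ → ℂ} {ρ M c : ℝ} (hρ : 0 < ρ) (hc : 0 < c)
    (hf : DifferentiableOn ℂ f (ball 0 (6 * ρ))) (hM : ∀ t : ℂ, ‖t‖ ≤ 5 * ρ → ‖f t‖ ≤ M)
    (hc' : c ≤ ‖f (ρ : ℂ)‖) : {t : ℂ | ‖t‖ ≤ ρ ∧ f t = 0}.Finite := by
  have hM0 : 0 ≤ M := (norm_nonneg _).trans (hM 0 (by simp; positivity))
  obtain ⟨K, hK⟩ : ∃ K : ℕ, M / 2 ^ K < c := by
    obtain ⟨K, hK⟩ := pow_unbounded_of_one_lt (M / c) (one_lt_two)
    refine ⟨K, ?_⟩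
    rw [div_lt_iff₀ (by positivity)]
    rw [div_lt_iff₀ hc] at hK
    linarith
  by_contra hinf
  obtain ⟨S', hS', hS'c⟩ := Set.Infinite.exists_subset_card_eq hinf K
  have h1 := zeros_bound hρ K S' hS'c f M hf hM (fun t ht => hS' ht) (ρ : ℂ) (by
        rw [Complex.norm_real, Real.norm_of_nonneg hρ.le])
  linarith

variable {E : Type*} [NormedAddCommGroup E] [NormedSpace ℂ E] [FiniteDimensional ℂ E]

/-- choice of a direction and radii -/
theorem exists_radii {Den Num : E → ℂ} {x₀ : E} (hN : AnalyticAt ℂ Num x₀)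
    (hD : AnalyticAt ℂ Den x₀) (hne : ¬ ∀ᶠ x in 𝓝 x₀, Den x = 0) {p : E → Prop}
    (hp : ∀ᶠ x in 𝓝 x₀, p x) :
    ∃ (η : E) (r ρ c M : ℝ), 0 < r ∧ 0 < ρ ∧ 0 < c ∧
      (∀ z ∈ ball x₀ r, ∀ t : ℂ, ‖t‖ < 6 * ρ → ∀ᶠ y in 𝓝 (z + t • η), DifferentiableAt ℂ Den y ∧
        DifferentiableAt ℂ Num y ∧ p y) ∧
      (∀ z ∈ ball x₀ r, ∀ t : ℂ, ‖t‖ ≤ 5 * ρ → ‖Den (z + t • η)‖ ≤ M) ∧
      (∀ z ∈ ball x₀ r, ∀ t : ℂ, ρ / 2 ≤ ‖t‖ → ‖t‖ ≤ 2 * ρ → c ≤ ‖Den (z + t • η)‖) := by
  obtain ⟨R, hR, hball⟩ : ∃ R > 0, ∀ y ∈ ball x₀ R, AnalyticAt ℂ Den y ∧ AnalyticAt ℂ Num y ∧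
      p y ∧ ‖Den y‖ < ‖Den x₀‖ + 1 := by
    have h1 := hD.continuousAt.norm.eventually_lt_const (show ‖Den x₀‖ < ‖Den x₀‖ + 1 by linarith)
    obtain ⟨R, hR, h⟩ := Metric.eventually_nhds_iff_ball.1
      (((hD.eventually_analyticAt.and hN.eventually_analyticAt).and hp).and h1)
    exact ⟨R, hR, fun y hy => ⟨(h y hy).1.1.1, (h y hy).1.1.2, (h y hy).1.2, (h y hy).2⟩⟩
  obtain ⟨y₁, hy₁, hy₁0⟩ : ∃ y ∈ ball x₀ R, Den y ≠ 0 := by
    by_contra hcon
    push Not at hcon
    exact hne (by filter_upwards [ball_mem_nhds x₀ hR] with y hy using hcon y hy)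
  set η : E := y₁ - x₀ with hη
  set h : ℂ → ℂ := fun t => Den (x₀ + t • η) with hh
  have hlin : ∀ t : ℂ, AnalyticAt ℂ (fun t : ℂ => x₀ + t • η) t := by
    intro t
    have : Differentiable ℂ (fun t : ℂ => x₀ + t • η) := by fun_prop
    exact this.analyticAt t
  -- identity theorem on the line
  set D : Set ℂ := {t : ℂ | x₀ + t • η ∈ ball x₀ R} with hDdef
  have hDconv : Convex ℝ D := by
    intro a ha b hb u v hu hv huv
    have h1 := (convex_ball x₀ R) ha hb hu hv huv
    have h2 : u • (x₀ + a • η) + v • (x₀ + b • η) = x₀ + (u • a + v • b) • η := by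
      have h3 : u • x₀ + v • x₀ = x₀ := by rw [← add_smul, huv, one_smul]
      rw [smul_add, smul_add, add_smul, smul_assoc, smul_assoc]
      nth_rewrite 3 [← h3]
      abel
    rw [h2] at h1
    exact h1
  have han : AnalyticOnNhd ℂ h D := fun t ht =>
    AnalyticAt.fun_comp (g := Den) (f := fun t : ℂ => x₀ + t • η) (hball _ ht).1 (hlin t)
  have h0D : (0 : ℂ) ∈ D := by simp [hDdef, hR]
  have h1D : (1 : ℂ) ∈ D := by
    simp only [hDdef, mem_ofPred_eq, one_smul, hη, add_sub_cancel]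
    exact hy₁
  have hnz : ∀ᶠ t in 𝓝[≠] (0 : ℂ), h t ≠ 0 := by
    rcases (han 0 h0D).eventually_eq_zero_or_eventually_ne_zero with h1 | h1
    · exfalso
      have := han.eqOn_zero_of_preconnected_of_eventuallyEq_zero hDconv.isPreconnected h0D h1 h1D
      apply hy₁0
      simpa [hh, hη] using this
    · exact h1
  obtain ⟨σ, hσ, hσne⟩ : ∃ σ > 0, ∀ t : ℂ, t ≠ 0 → ‖t‖ < σ → h t ≠ 0 := by
    obtain ⟨σ, hσ, h1⟩ := Metric.mem_nhdsWithin_iff.1 hnz
    refine ⟨σ, hσ, fun t ht ht' => h1 ⟨by rwa [mem_ball_zero_iff], ht⟩⟩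
  obtain ⟨ρ, hρ, hρσ, hρR⟩ : ∃ ρ > 0, 2 * ρ < σ ∧ 6 * ρ * ‖η‖ < R / 2 := by
    refine ⟨min (σ / 4) (R / (24 * (‖η‖ + 1))), by positivity, ?_, ?_⟩
    · have := min_le_left (σ / 4) (R / (24 * (‖η‖ + 1)))
      linarith
    · have h1 := min_le_right (σ / 4) (R / (24 * (‖η‖ + 1)))
      have h2 : 0 ≤ ‖η‖ := norm_nonneg _
      calc 6 * min (σ / 4) (R / (24 * (‖η‖ + 1))) * ‖η‖
          ≤ 6 * (R / (24 * (‖η‖ + 1))) * ‖η‖ := by gcongr
        _ = (R / 4) * (‖η‖ / (‖η‖ + 1)) := by field_simp; ring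
        _ ≤ (R / 4) * 1 := by
            gcongr
            rw [div_le_one (by positivity)]
            linarith
        _ < R / 2 := by linarith
  -- the annulus
  set A : Set ℂ := closedBall 0 (2 * ρ) \ ball 0 (ρ / 2) with hA
  have hAc : IsCompact A := (isCompact_closedBall _ _).diff isOpen_ball
  have hAne : A.Nonempty := ⟨(ρ : ℂ), by
    simp only [hA, Set.mem_sdiff, mem_closedBall_zero_iff, mem_ball_zero_iff, Complex.norm_real,
      Real.norm_of_nonneg hρ.le, not_lt]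
    constructor <;> linarith⟩
  have hmemR : ∀ z : E, dist z x₀ < R / 2 → ∀ t : ℂ, ‖t‖ < 6 * ρ → z + t • η ∈ ball x₀ R := by
    intro z hz t ht
    rw [mem_ball]
    calc dist (z + t • η) x₀ ≤ dist (z + t • η) z + dist z x₀ := dist_triangle _ _ _
      _ = ‖t‖ * ‖η‖ + dist z x₀ := by rw [dist_eq_norm, add_sub_cancel_left, norm_smul]
      _ ≤ 6 * ρ * ‖η‖ + dist z x₀ := by gcongr
      _ < R := by linarith
  have hcont : Continuous fun p : E × ℂ => p.1 + p.2 • η := by fun_prop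
  have hDc : ∀ t : ℂ, ‖t‖ < 6 * ρ → ContinuousAt (fun p : E × ℂ => ‖Den (p.1 + p.2 • η)‖) (x₀, t) := by
    intro t ht
    have h1 : ContinuousAt Den (x₀ + t • η) :=
      (hball _ (hmemR x₀ (by rw [dist_self]; linarith) t ht)).1.continuousAt
    exact (ContinuousAt.comp (g := Den) (f := fun p : E × ℂ => p.1 + p.2 • η) (x := (x₀, t)) h1
      hcont.continuousAt).norm
  obtain ⟨c, hc, hcmin⟩ : ∃ c > 0, ∀ t ∈ A, c ≤ ‖h t‖ := by
    have hcon : ContinuousOn (fun t : ℂ => ‖h t‖) A := by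
      intro t ht
      have h1 : ‖t‖ < 6 * ρ := by
        have := mem_closedBall_zero_iff.1 ht.1
        linarith
      have h2 : ContinuousAt (fun t : ℂ => ((x₀, t) : E × ℂ)) t := by fun_prop
      exact (ContinuousAt.comp (g := fun p : E × ℂ => ‖Den (p.1 + p.2 • η)‖)
        (f := fun t : ℂ => ((x₀, t) : E × ℂ)) (hDc t h1) h2).continuousWithinAt
    obtain ⟨t₁, ht₁, hmin⟩ := hAc.exists_isMinOn hAne hcon
    refine ⟨‖h t₁‖, norm_pos_iff.2 (hσne t₁ ?_ ?_), fun t ht => hmin ht⟩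
    · rintro rfl
      apply ht₁.2
      simp only [mem_ball_zero_iff, norm_zero]
      positivity
    · have := mem_closedBall_zero_iff.1 ht₁.1
      linarith
  have hev1 : ∀ᶠ z in 𝓝 x₀, ∀ t ∈ A, c / 2 < ‖Den (z + t • η)‖ := by
    refine hAc.eventually_forall_of_forall_eventually fun t ht => ?_
    have h1 : ‖t‖ < 6 * ρ := by
      have := mem_closedBall_zero_iff.1 ht.1
      linarith
    refine (hDc t h1).eventually_const_lt ?_
    have := hcmin t ht
    simp only [hh] at this ⊢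
    linarith
  obtain ⟨r, hr, hrb⟩ := Metric.eventually_nhds_iff_ball.1 hev1
  refine ⟨η, min r (R / 2), ρ, c / 2, ‖Den x₀‖ + 1, by positivity, hρ, by positivity, ?_, ?_, ?_⟩
  · intro z hz t ht
    rw [mem_ball, lt_min_iff] at hz
    have h1 := hmemR z hz.2 t ht
    filter_upwards [isOpen_ball.mem_nhds h1] with y hy
    exact ⟨(hball y hy).1.differentiableAt, (hball y hy).2.1.differentiableAt, (hball y hy).2.2.1⟩
  · intro z hz t ht
    rw [mem_ball, lt_min_iff] at hz
    exact (hball _ (hmemR z hz.2 t (by linarith))).2.2.2.le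
  · intro z hz t ht1 ht2
    rw [mem_ball, lt_min_iff] at hz
    refine (hrb z hz.1 t ⟨by rwa [mem_closedBall_zero_iff], ?_⟩).le
    rw [mem_ball_zero_iff]
    linarith

/-- Extension theorem: a quotient of holomorphic functions which is locally bounded near the points
of a dense subset of the zero set of the denominator is holomorphic. -/
theorem extend_quotient {Num Den : E → ℂ} {x₀ : E} (hN : AnalyticAt ℂ Num x₀)
    (hD : AnalyticAt ℂ Den x₀) (hne : ¬ ∀ᶠ x in 𝓝 x₀, Den x = 0)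
    (hb : ∀ᶠ x in 𝓝 x₀, Den x = 0 → x ∈ closure {y | Den y = 0 ∧
      ∃ C : ℝ, ∀ᶠ z in 𝓝 y, ‖Num z‖ ≤ C * ‖Den z‖}) :
    ∃ Q : E → ℂ, AnalyticAt ℂ Q x₀ ∧ ∀ᶠ x in 𝓝 x₀, Num x = Den x * Q x := by
  set R : Set E := {y | Den y = 0 ∧ ∃ C : ℝ, ∀ᶠ z in 𝓝 y, ‖Num z‖ ≤ C * ‖Den z‖} with hR
  obtain ⟨η, r, ρ, c, M, hr, hρ, hc, h1, h2, h3⟩ := exists_radii hN hD hne hb
  have hRo : ∀ x ∈ R, ∀ᶠ y in 𝓝 x, Den y = 0 → y ∈ R := by
    rintro x ⟨hx0, C, hC⟩
    filter_upwards [eventually_eventually_nhds.2 hC] with y hy hy0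
    exact ⟨hy0, C, hy⟩
  obtain ⟨z₁, hz₁, hgood⟩ := good_line (P := Den) (R := R) (η := η) (c := c) (M := M) hr hρ hc
    (fun z hz t ht => (h1 z hz t ht).mono fun y hy => hy.1) h2
    (fun z hz t ht => h3 z hz t (by linarith) (by linarith)) hRo (fun x hx => hx.1)
    (fun z hz t ht h0 => (h1 z hz t (by linarith)).self_of_nhds.2.2 h0)
  have hcont : Continuous fun p : E × ℂ => p.1 + p.2 • η := by fun_prop
  have hgood' : ∀ᶠ z in 𝓝 z₁, ∀ t ∈ closedBall (0 : ℂ) ρ, Den (z + t • η) = 0 → z + t • η ∈ R := by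
    refine (isCompact_closedBall (0 : ℂ) ρ).eventually_forall_of_forall_eventually fun t ht => ?_
    rw [mem_closedBall_zero_iff] at ht
    have hct : ContinuousAt Den (z₁ + t • η) :=
      (h1 z₁ hz₁ t (by linarith)).self_of_nhds.1.continuousAt
    by_cases h0 : Den (z₁ + t • η) = 0
    · have htlt : ‖t‖ < ρ := by
        rcases ht.lt_or_eq with h | h
        · exact h
        · have := h3 z₁ hz₁ t (by linarith) (by linarith)
          rw [h0, norm_zero] at this
          linarith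
      exact (hcont.continuousAt (x := (z₁, t))).eventually (hRo _ (hgood t htlt h0))
    · have h4 : ∀ᶠ y in 𝓝 (z₁ + t • η), Den y ≠ 0 := hct.eventually_ne h0
      filter_upwards [(hcont.continuousAt (x := (z₁, t))).eventually h4] with p hp hp0
      exact absurd hp0 hp
  have hfin : ∀ z ∈ ball x₀ r, {t : ℂ | ‖t‖ ≤ ρ ∧ Den (z + t • η) = 0}.Finite := by
    intro z hz
    refine finite_zeros (f := fun t => Den (z + t • η)) (M := M) hρ hc ?_ (h2 z hz) ?_
    · intro t ht
      rw [mem_ball_zero_iff] at ht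
      exact (DifferentiableAt.comp (g := Den) (f := fun t : ℂ => z + t • η) t
        (h1 z hz t ht).self_of_nhds.1 (by fun_prop)).differentiableWithinAt
    · have hn : ‖(ρ : ℂ)‖ = ρ := by rw [Complex.norm_real, Real.norm_of_nonneg hρ.le]
      exact h3 z hz (ρ : ℂ) (by rw [hn]; linarith) (by rw [hn]; linarith)
  -- a point with nonvanishing denominator
  obtain ⟨z₂, hz₂⟩ : ∃ z₂, ∀ᶠ z in 𝓝 z₂, z ∈ ball x₀ r ∧ Den z ≠ 0 ∧
      ∀ t ∈ closedBall (0 : ℂ) ρ, Den (z + t • η) = 0 → z + t • η ∈ R := by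
    have h5 : ∀ᶠ t : ℂ in 𝓝[≠] 0, t ∉ {t : ℂ | ‖t‖ ≤ ρ ∧ Den (z₁ + t • η) = 0} \ {0} :=
      nhdsWithin_le_nhds (((hfin z₁ hz₁).subset sdiff_subset).isClosed.isOpen_compl.mem_nhds
        (fun h => h.2 rfl))
    have h6 : ∀ᶠ t : ℂ in 𝓝[≠] 0, ‖t‖ < ρ := by
      refine nhdsWithin_le_nhds ?_
      filter_upwards [ball_mem_nhds (0 : ℂ) hρ] with t ht
      rwa [mem_ball_zero_iff] at ht
    have h7 : ∀ᶠ t : ℂ in 𝓝[≠] 0, ∀ᶠ z in 𝓝 (z₁ + t • η), z ∈ ball x₀ r ∧
        ∀ t ∈ closedBall (0 : ℂ) ρ, Den (z + t • η) = 0 → z + t • η ∈ R := by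
      refine nhdsWithin_le_nhds ?_
      have h8 : Tendsto (fun t : ℂ => z₁ + t • η) (𝓝 0) (𝓝 z₁) := by
        have : ContinuousAt (fun t : ℂ => z₁ + t • η) 0 := by fun_prop
        simpa using this.tendsto
      have h9 := eventually_eventually_nhds.2 (Filter.Eventually.and (isOpen_ball.mem_nhds hz₁)
        hgood')
      exact h8.eventually h9
    obtain ⟨t, ⟨⟨ht5, ht6⟩, ht7⟩, ht0⟩ := (((h5.and h6).and h7).and self_mem_nhdsWithin).exists
    refine ⟨z₁ + t • η, ?_⟩
    have h8 : Den (z₁ + t • η) ≠ 0 := fun h => ht5 ⟨⟨ht6.le, h⟩, ht0⟩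
    have h9 : ContinuousAt Den (z₁ + t • η) :=
      (h1 z₁ hz₁ t (by linarith)).self_of_nhds.1.continuousAt
    filter_upwards [ht7, h9.eventually_ne h8] with z hz hz'
    exact ⟨hz.1, hz', hz.2⟩
  -- the Cauchy integral
  set Q : E → ℂ := fun z => (2 * Real.pi * Complex.I)⁻¹ *
    ∮ t in C(0, ρ), t⁻¹ * (Num (z + t • η) / Den (z + t • η)) with hQ
  have hQd : DifferentiableOn ℂ Q (ball x₀ r) := by
    have hop : IsOpen {t : ℂ | ρ / 2 < ‖t‖ ∧ ‖t‖ < 2 * ρ} :=
      (isOpen_lt continuous_const continuous_norm).inter (isOpen_lt continuous_norm continuous_const)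
    have := differentiableOn_circleIntegral (E := E) (F := ℂ) (c := 0) (R := ρ) hρ.le
      (G := fun p : E × ℂ => p.2⁻¹ * (Num (p.1 + p.2 • η) / Den (p.1 + p.2 • η)))
      (U := ball x₀ r) isOpen_ball hop (by
        intro t ht
        rw [mem_sphere_zero_iff_norm] at ht
        constructor <;> linarith) (by
        rintro ⟨z, t⟩ ⟨hz, ht1, ht2⟩
        simp only at hz ht1 ht2
        have hd1 := (h1 z hz t (by linarith)).self_of_nhds
        have hlin : DifferentiableAt ℂ (fun p : E × ℂ => p.1 + p.2 • η) (z, t) := by fun_prop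
        have hd2 : DifferentiableAt ℂ (fun p : E × ℂ => Num (p.1 + p.2 • η)) (z, t) :=
          DifferentiableAt.comp (g := Num) (f := fun p : E × ℂ => p.1 + p.2 • η) (z, t) hd1.2.1 hlin
        have hd3 : DifferentiableAt ℂ (fun p : E × ℂ => Den (p.1 + p.2 • η)) (z, t) :=
          DifferentiableAt.comp (g := Den) (f := fun p : E × ℂ => p.1 + p.2 • η) (z, t) hd1.1 hlin
        have hne0 : Den (z + t • η) ≠ 0 := by
          have := h3 z hz t ht1.le ht2.le
          intro h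
          rw [h, norm_zero] at this
          linarith
        have ht0 : t ≠ 0 := by
          rintro rfl
          rw [norm_zero] at ht1
          linarith
        have hd4 : DifferentiableAt ℂ (fun p : E × ℂ => p.2⁻¹) (z, t) :=
          differentiableAt_snd.inv ht0
        have hd5 : DifferentiableAt ℂ (fun p : E × ℂ => (Den (p.1 + p.2 • η))⁻¹) (z, t) :=
          hd3.inv hne0
        simp only [div_eq_mul_inv]
        exact (hd4.mul (hd2.mul hd5)).differentiableWithinAt)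
    exact this.const_mul _
  have hQeq : ∀ z ∈ ball x₀ r, Den z ≠ 0 →
      (∀ t ∈ closedBall (0 : ℂ) ρ, Den (z + t • η) = 0 → z + t • η ∈ R) → Q z = Num z / Den z := by
    intro z hz hz0 hzg
    set f : ℂ → ℂ := fun t => Num (z + t • η) / Den (z + t • η) with hf
    set S := (hfin z hz).toFinset with hS
    have hmemS : ∀ t, t ∈ S ↔ ‖t‖ ≤ ρ ∧ Den (z + t • η) = 0 := by
      intro t
      rw [hS, Set.Finite.mem_toFinset]
      rfl
    have hne' : ∀ t : ℂ, ‖t‖ < 2 * ρ → t ∉ S → Den (z + t • η) ≠ 0 := by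
      intro t ht htS h
      rw [hmemS, not_and] at htS
      by_cases h5 : ‖t‖ ≤ ρ
      · exact htS h5 h
      · have := h3 z hz t (by linarith) ht.le
        rw [h, norm_zero] at this
        linarith
    obtain ⟨g, hg1, hg2⟩ := extend_finite (U := ball (0 : ℂ) (2 * ρ)) isOpen_ball S f (by
        rintro t ⟨ht1, ht2⟩
        rw [mem_ball_zero_iff] at ht1
        have hd1 := (h1 z hz t (by linarith)).self_of_nhds
        have hlin : DifferentiableAt ℂ (fun t : ℂ => z + t • η) t := by fun_prop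
        have hd2 : DifferentiableAt ℂ (fun t : ℂ => Num (z + t • η)) t :=
          DifferentiableAt.comp (g := Num) (f := fun t : ℂ => z + t • η) t hd1.2.1 hlin
        have hd3 : DifferentiableAt ℂ (fun t : ℂ => Den (z + t • η)) t :=
          DifferentiableAt.comp (g := Den) (f := fun t : ℂ => z + t • η) t hd1.1 hlin
        exact (hd2.div hd3 (hne' t ht1 (by simpa using ht2))).differentiableWithinAt) (by
        intro s hs _
        rw [hmemS] at hs
        obtain ⟨-, C, hC⟩ := hzg s (by rw [mem_closedBall_zero_iff]; exact hs.1) hs.2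
        refine ⟨max C 0, nhdsWithin_le_nhds ?_⟩
        have h8 : ContinuousAt (fun t : ℂ => z + t • η) s := by fun_prop
        filter_upwards [h8.eventually hC] with t ht
        simp only [hf]
        rw [norm_div]
        by_cases h9 : Den (z + t • η) = 0
        · rw [h9, norm_zero, div_zero]
          exact le_max_right _ _
        · rw [div_le_iff₀ (norm_pos_iff.2 h9)]
          refine ht.trans ?_
          gcongr
          exact le_max_left _ _)
    have h0S : (0 : ℂ) ∉ S := by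
      rw [hmemS, zero_smul, add_zero]
      exact fun h => hz0 h.2
    have hint : (∮ t in C(0, ρ), t⁻¹ * (Num (z + t • η) / Den (z + t • η))) =
        ∮ t in C(0, ρ), (t - 0)⁻¹ • g t := by
      refine circleIntegral.integral_congr hρ.le fun t ht => ?_
      rw [mem_sphere_zero_iff_norm] at ht
      have htS : t ∉ S := by
        rw [hmemS]
        rintro ⟨-, h⟩
        have := h3 z hz t (by linarith) (by linarith)
        rw [h, norm_zero] at this
        linarith
      simp only [sub_zero, smul_eq_mul]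
      rw [hg2 t htS]
    have hdc : DiffContOnCl ℂ g (ball 0 ρ) := by
      refine DifferentiableOn.diffContOnCl (hg1.mono ?_)
      rw [closure_ball _ hρ.ne']
      exact closedBall_subset_ball (by linarith)
    have hcauchy := hdc.circleIntegral_sub_inv_smul (w := 0) (mem_ball_self hρ)
    simp only [hQ]
    rw [hint, hcauchy, hg2 0 h0S, smul_eq_mul, ← mul_assoc, inv_mul_cancel₀, one_mul]
    · simp [hf]
    · simp [Real.pi_ne_zero]
  -- identity theorem
  have hdiff : DifferentiableOn ℂ (fun z => Den z * Q z - Num z) (ball x₀ r) := by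
    intro z hz
    have hd1 := (h1 z hz 0 (by simp; positivity)).self_of_nhds
    rw [zero_smul, add_zero] at hd1
    have hd2 := hQd.differentiableAt (isOpen_ball.mem_nhds hz)
    exact ((hd1.1.mul hd2).sub hd1.2.1).differentiableWithinAt
  have han := analyticOnNhd_of_differentiableOn isOpen_ball hdiff
  have hz2b : z₂ ∈ ball x₀ r := hz₂.self_of_nhds.1
  have hzero : (fun z => Den z * Q z - Num z) =ᶠ[𝓝 z₂] 0 := by
    filter_upwards [hz₂] with z hz
    simp only [Pi.zero_apply]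
    rw [hQeq z hz.1 hz.2.1 hz.2.2, mul_div_cancel₀ _ hz.2.1, sub_self]
  have hall := han.eqOn_zero_of_preconnected_of_eventuallyEq_zero
    (convex_ball _ _).isPreconnected hz2b hzero
  refine ⟨Q, analyticOnNhd_of_differentiableOn isOpen_ball hQd x₀ (mem_ball_self hr), ?_⟩
  filter_upwards [ball_mem_nhds x₀ hr] with z hz
  have := hall hz
  simp only [Pi.zero_apply] at this
  exact (sub_eq_zero.1 this).symm

end Vale.Agent.P281.MF
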