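import Vale.Agent.P281.MF.Lin

open scoped Manifold ContDiff Topology
open Set Filter Metric

namespace Vale.Agent.P281.MF

open Vale.Agent.P281

set_option linter.unusedSectionVars false

universe u

section Fr

variable {E E' V : Type} [NormedAddCommGroup E] [NormedSpace ℂ E] [FiniteDimensional ℂ E]
  [NormedAddCommGroup E'] [NormedSpace ℂ E'] [FiniteDimensional ℂ E']
  [NormedAddCommGroup V] [NormedSpace ℂ V] [FiniteDimensional ℂ V]
variable {X Y : Type u} [TopologicalSpace X] [ChartedSpace E X] [IsManifold 𝓘(ℂ, E) ω X]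
  [TopologicalSpace Y] [ChartedSpace E' Y] [IsManifold 𝓘(ℂ, E') ω Y]

/-- holomorphic vertical frames with torsion determinant. -/
structure Frames (E E' : Type) {V : Type} [NormedAddCommGroup E] [NormedSpace ℂ E]
    [NormedAddCommGroup E'] [NormedSpace ℂ E'] [NormedAddCommGroup V] [NormedSpace ℂ V]
    {X Y : Type u} [TopologicalSpace X] [ChartedSpace E X]
    [TopologicalSpace Y] [ChartedSpace E' Y] (f : X → Y) (N : ℕ) {ι : Type u} (U : ι → Set X)
    (τ : ι → X → V →L[ℂ] E) : Prop where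
  cov : ∀ x, ∃ a, x ∈ U a
  isOpen : ∀ a, IsOpen (U a)
  inj : ∀ a, ∀ x ∈ U a, Function.Injective (τ a x)
  ker : ∀ a, ∀ x ∈ U a, ∀ v, dM E E' f x (τ a x v) = 0
  hol : ∀ a, ∀ x ∈ U a, ∀ (v : V) (h : X → ℂ), HolV E h x →
    HolV E (fun z => dif E h z (τ a z v)) x
  trans : ∀ a b, ∀ x ∈ U a ∩ U b, ∃ A : V →ₗ[ℂ] V, LinearMap.det A ^ N = 1 ∧
    ∀ v, τ b x v = τ a x (A v)

theorem holV_clm {W : Type*} [NormedAddCommGroup W] [NormedSpace ℂ W] [FiniteDimensional ℂ W]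
    {T : X → (V →L[ℂ] W)} {x : X}
    (h : ∀ (v : V) (l : W →L[ℂ] ℂ), HolV E (fun z => l (T z v)) x) : HolV E T x := by
  classical
  have hx : x ∈ (chartAt E x).source := mem_chart_source E x
  let b := Module.finBasis ℂ V
  let c := Module.finBasis ℂ W
  refine HolV.of_rep hx ?_
  have h1 : (T ∘ (chartAt E x).symm) = fun w => ∑ i, ∑ j,
      ((LinearMap.toContinuousLinearMap (c.coord j)) (T ((chartAt E x).symm w) (b i))) •
        ((LinearMap.toContinuousLinearMap (b.coord i)).smulRight (c j) : V →L[ℂ] W) := by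
    funext w
    refine ContinuousLinearMap.ext fun v => ?_
    simp only [Function.comp_apply, sum_apply, smul_apply, ContinuousLinearMap.smulRight_apply,
      LinearMap.coe_toContinuousLinearMap', Module.Basis.coord_apply]
    conv_lhs => rw [← b.sum_repr v]
    rw [map_sum]
    refine Finset.sum_congr rfl fun i _ => ?_
    rw [map_smul]
    conv_lhs => rw [← c.sum_repr (T ((chartAt E x).symm w) (b i))]
    rw [Finset.smul_sum]
    refine Finset.sum_congr rfl fun j _ => ?_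
    rw [smul_smul, smul_smul, mul_comm]
  rw [h1]
  refine ContDiffAt.sum fun i _ => ContDiffAt.sum fun j _ => ?_
  exact ((h (b i) (LinearMap.toContinuousLinearMap (c.coord j))).rep hx).smul contDiffAt_const

variable {f : X → Y} {N : ℕ} {ι : Type u} {U : ι → Set X} {τ : ι → X → V →L[ℂ] E}

theorem Frames.holT (hF : Frames E E' f N U τ) {a : ι} {x₀ x : X} (hx : x ∈ U a)
    (hs : x ∈ (chartAt E x₀).source) :
    HolV E (fun z => (dV E (chartAt E x₀ : X → E) z).comp (τ a z)) x := by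
  refine holV_clm fun v l => ?_
  have hl : HolV E (fun z => l ((chartAt E x₀ : X → E) z)) x :=
    HolV.comp_contDiff l.contDiff.contDiffAt (HolV.chart hs)
  refine (hF.hol a x hx v _ hl).congr ?_
  filter_upwards [(chartAt E x₀).open_source.mem_nhds hs] with z hz
  rw [dif_eq_dV, dV_comp_contDiff l.contDiff.contDiffAt (HolV.chart hz), l.fderiv]
  rfl

theorem Frames.exists_proj (hF : Frames E E' f N U τ) (z₀ : X) :
    ∃ (a : ι) (P : X → (E →L[ℂ] V)), z₀ ∈ U a ∧ HolV E P z₀ ∧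
      ∀ᶠ z in 𝓝 z₀, z ∈ U a ∧ ∀ v, P z (dV E (chartAt E z₀ : X → E) z (τ a z v)) = v := by
  obtain ⟨a, ha⟩ := hF.cov z₀
  have hs : z₀ ∈ (chartAt E z₀).source := mem_chart_source E z₀
  set T : X → (V →L[ℂ] E) := fun z => (dV E (chartAt E z₀ : X → E) z).comp (τ a z) with hT
  have hTh : HolV E T z₀ := hF.holT ha hs
  have hinj : Function.Injective (T z₀) := by
    obtain ⟨A, hA⟩ := dV_chart_leftInv (E := E) hs
    intro v w hvw
    apply hF.inj a z₀ ha
    have h1 := congrArg A hvw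
    have h2 : ∀ u, A (T z₀ u) = τ a z₀ u := fun u =>
      congrArg (fun B : E →L[ℂ] E => B (τ a z₀ u)) hA
    rwa [h2, h2] at h1
  obtain ⟨P₀, hP₀⟩ := exists_left_inv hinj
  set B : X → (V →L[ℂ] V) := fun z => P₀.comp (T z) with hB
  have hBh : HolV E B z₀ := HolV.comp_contDiff (G := fun A : V →L[ℂ] E => P₀.comp A)
    (contDiffAt_const.clm_comp contDiffAt_id) hTh
  have hB1 : B z₀ = 1 := by
    ext v; exact hP₀ v
  have hinv : ContDiffAt ℂ ω (fun A : V →L[ℂ] V => (Ring.inverse A).comp P₀) (B z₀) := by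
    rw [hB1]
    refine ContDiffAt.clm_comp ?_ contDiffAt_const
    exact contDiffAt_ringInverse ℂ (1 : (V →L[ℂ] V)ˣ)
  have hunit : ∀ᶠ z in 𝓝 z₀, IsUnit (B z) := by
    have h1 : {A : V →L[ℂ] V | IsUnit A} ∈ 𝓝 (B z₀) :=
      Units.isOpen.mem_nhds (by rw [hB1]; exact isUnit_one)
    exact hBh.continuousAt.eventually h1
  refine ⟨a, fun z => (Ring.inverse (B z)).comp P₀, ha, HolV.comp_contDiff hinv hBh, ?_⟩
  filter_upwards [hunit, (hF.isOpen a).mem_nhds ha] with z hz hza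
  refine ⟨hza, fun v => ?_⟩
  have h1 : Ring.inverse (B z) * B z = 1 := Ring.inverse_mul_cancel _ hz
  exact congrArg (fun A : V →L[ℂ] V => A v) h1

variable (e : E ≃L[ℂ] (E' × V))

open Classical in
/-- `N`-th power of the relative Jacobian. -/
noncomputable def JJ (e : E ≃L[ℂ] (E' × V)) (f : X → Y) (N : ℕ) (U : ι → Set X)
    (τ : ι → X → V →L[ℂ] E) (x : X) : ℂ :=
  if h : ∃ c : ℂ, ∃ a, x ∈ U a ∧ ∃ P : E →L[ℂ] V, (∀ v, P (τ a x v) = v) ∧
    c = JP e (dM E E' f x) P ^ N then h.choose else 0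

theorem Frames.JJ_eq (hF : Frames E E' f N U τ) {x : X} {a : ι} (ha : x ∈ U a) {P : E →L[ℂ] V}
    (hP : ∀ v, P (τ a x v) = v) : JJ e f N U τ x = JP e (dM E E' f x) P ^ N := by
  have h : ∃ c : ℂ, ∃ a, x ∈ U a ∧ ∃ P : E →L[ℂ] V, (∀ v, P (τ a x v) = v) ∧
    c = JP e (dM E E' f x) P ^ N := ⟨_, a, ha, P, hP, rfl⟩
  unfold JJ
  rw [dif_pos h]
  obtain ⟨b, hb, P', hP', hc⟩ := h.choose_spec
  rw [hc]
  obtain ⟨A, hA, hAv⟩ := hF.trans a b x ⟨ha, hb⟩
  rw [JP_frame e (hF.ker a x ha) hP hP' hAv, mul_pow, hA, one_mul]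

theorem holV_JP {A : X → (E →L[ℂ] E')} {P : X → (E →L[ℂ] V)} {x : X} (hA : HolV E A x)
    (hP : HolV E P x) : HolV E (fun z => ((A z).prod (P z)).comp
      (e.symm : (E' × V) →L[ℂ] E)) x := by
  have hx : x ∈ (chartAt E x).source := mem_chart_source E x
  refine HolV.of_rep hx ?_
  have h1 : ((fun z => ((A z).prod (P z)).comp (e.symm : (E' × V) →L[ℂ] E)) ∘ (chartAt E x).symm) =
      fun w => ((ContinuousLinearMap.inl ℂ E' V).comp (A ((chartAt E x).symm w)) +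
        (ContinuousLinearMap.inr ℂ E' V).comp (P ((chartAt E x).symm w))).comp
          (e.symm : (E' × V) →L[ℂ] E) := by
    funext w
    refine ContinuousLinearMap.ext fun p => ?_
    simp
  rw [h1]
  exact ((contDiffAt_const.clm_comp (hA.rep hx)).add
    (contDiffAt_const.clm_comp (hP.rep hx))).clm_comp contDiffAt_const

theorem Frames.local_J (hF : Frames E E' f N U τ) (hf : ∀ x, HolM E E' f x) (z₀ : X) :
    ∃ H : X → ℂ, HolV E H z₀ ∧
      (∀ᶠ z in 𝓝 z₀, jac E' (chartAt E' (f z₀)) (f z) ^ N * JJ e f N U τ z =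
        (H z * jac E (chartAt E z₀) z) ^ N) ∧
      (∀ᶠ z in 𝓝 z₀, (Function.Surjective (dM E E' f z) ↔ H z ≠ 0)) ∧
      (∀ᶠ z₁ in 𝓝 z₀, ∀ (g : Y → ℂ) (e' w : X → ℂ) (κ : ℕ), HolV E' g (f z₁) →
        dif E' g (f z₁) ≠ 0 → HolV E e' z₁ → HolV E w z₁ →
        (∀ᶠ z in 𝓝 z₁, g (f z) = e' z ^ κ * w z) → 0 < κ →
        ∃ C : ℝ, ∀ᶠ z in 𝓝 z₁, ‖H z‖ ≤ C * ‖e' z‖ ^ (κ - 1)) := by
  obtain ⟨a, P, ha, hPh, hPe⟩ := hF.exists_proj z₀
  set φ := chartAt E z₀ with hφ
  set ψ := chartAt E' (f z₀) with hψ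
  let F : X → E' := fun x => ψ (f x)
  have hFh : HolV E F z₀ :=
    HolV.comp (h := (ψ : Y → E')) (HolV.chart (mem_chart_source E' (f z₀))) (hf z₀)
  have hz0 : z₀ ∈ φ.source := mem_chart_source E z₀
  let A : X → (E →L[ℂ] E') := fun z => fderiv ℂ (F ∘ φ.symm) (φ z)
  have hA : HolV E A z₀ := by
    refine HolV.comp_contDiff (G := fderiv ℂ (F ∘ φ.symm)) ?_ (HolV.chart hz0)
    exact (hFh.rep hz0).fderiv_right (by simp)
  have hM := holV_JP e hA hPh
  set M : X → ((E' × V) →L[ℂ] (E' × V)) :=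
    fun z => ((A z).prod (P z)).comp (e.symm : (E' × V) →L[ℂ] E) with hMdef
  have hfc : ∀ x, ContinuousAt f x := fun x => (hf x).continuousAt
  have htgt : ∀ᶠ x in 𝓝 z₀, f x ∈ ψ.source :=
    (hfc z₀).eventually (ψ.open_source.mem_nhds (mem_chart_source E' (f z₀)))
  have hsrc : ∀ᶠ x in 𝓝 z₀, x ∈ φ.source := φ.open_source.mem_nhds hz0
  have key : ∀ᶠ z in 𝓝 z₀, ∃ P' : E →L[ℂ] V, (∀ v, P' (τ a z v) = v) ∧ z ∈ U a ∧
      f z ∈ ψ.source ∧ z ∈ φ.source ∧
      jac E' ψ (f z) * JP e (dM E E' f z) P' = (M z).det * jac E φ z := by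
    filter_upwards [hPe, hsrc, htgt, hFh.eventually] with z hz hzs hzt hFz
    refine ⟨(P z).comp (dV E (φ : X → E) z), hz.2, hz.1, hzt, hzs, ?_⟩
    have h1 := JP_left e (dM E E' f z) ((P z).comp (dV E (φ : X → E) z))
      (dV E' (ψ : Y → E') (f z)) (ContinuousLinearMap.id ℂ V)
    have h2 : (ContinuousLinearMap.id ℂ V).det = 1 := by simp [ContinuousLinearMap.det]
    rw [h2, mul_one] at h1
    have h3 : (dV E' (ψ : Y → E') (f z)).comp (dM E E' f z) =
        (A z).comp (dV E (φ : X → E) z) := by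
      have h4 := dV_comp (h := (ψ : Y → E')) (HolV.chart hzt) (hf z)
      rw [← h4]
      exact dV_eq_chart hzs hFz
    rw [h3, show (ContinuousLinearMap.id ℂ V).comp ((P z).comp (dV E (φ : X → E) z)) =
      (P z).comp (dV E (φ : X → E) z) from rfl, JP_comp] at h1
    exact h1.symm
  refine ⟨fun z => (M z).det, HolV.comp_contDiff contDiff_det.contDiffAt hM, ?_, ?_, ?_⟩
  · filter_upwards [key] with z hz
    obtain ⟨P', hP', hza, -, -, hz'⟩ := hz
    rw [hF.JJ_eq e hza hP', ← mul_pow, hz']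
  · filter_upwards [key] with z hz
    obtain ⟨P', hP', hza, hzt, hzs, hz'⟩ := hz
    have hj : jac E φ z ≠ 0 := jac_chart_ne_zero hzs
    have hj' : jac E' ψ (f z) ≠ 0 := jac_chart_ne_zero hzt
    constructor
    · intro hs h0
      rw [h0, zero_mul] at hz'
      exact (mul_ne_zero hj' (JP_ne_zero e (hF.ker a z hza) hP' hs)) hz'
    · intro h0
      have h1 : JP e (dM E E' f z) P' ≠ 0 := by
        intro h
        rw [h, mul_zero] at hz'
        exact mul_ne_zero h0 hj hz'.symm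
      have h2 : Function.Surjective (((dM E E' f z).prod P').comp
          (e.symm : (E' × V) →L[ℂ] E)) := by
        have hu := LinearMap.equivOfDetNeZero ((((dM E E' f z).prod P').comp
          (e.symm : (E' × V) →L[ℂ] E) : (E' × V) →L[ℂ] (E' × V)) :
            (E' × V) →ₗ[ℂ] (E' × V)) h1
        intro w
        exact ⟨(LinearMap.equivOfDetNeZero ((((dM E E' f z).prod P').comp
          (e.symm : (E' × V) →L[ℂ] E) : (E' × V) →L[ℂ] (E' × V)) :
            (E' × V) →ₗ[ℂ] (E' × V)) h1).symm w, (LinearMap.equivOfDetNeZero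
          ((((dM E E' f z).prod P').comp
          (e.symm : (E' × V) →L[ℂ] E) : (E' × V) →L[ℂ] (E' × V)) :
            (E' × V) →ₗ[ℂ] (E' × V)) h1).apply_symm_apply w⟩
      intro y
      obtain ⟨w, hw⟩ := h2 (y, 0)
      exact ⟨e.symm w, (Prod.mk.inj hw).1⟩
  · obtain ⟨adj, hadj, hadjv⟩ := exists_adj (E' × V)
    filter_upwards [hM.eventually, hsrc, htgt, hFh.eventually] with z₁ hMz hzs hzt hFz
    intro g e' w κ hg hdg he' hw heq hκ
    -- the functional
    have hfe : ∀ᶠ z in 𝓝 z₁, f z ∈ ψ.source := (hfc z₁).eventually (ψ.open_source.mem_nhds hzt)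
    let L : X → (E' →L[ℂ] ℂ) := fun z => fderiv ℂ (g ∘ ψ.symm) (ψ (f z))
    have hLc : ContinuousAt L z₁ := by
      have h1 : ContinuousAt (fderiv ℂ (g ∘ ψ.symm)) (ψ (f z₁)) :=
        ((hg.rep hzt).fderiv_right (m := ω) (by simp)).continuousAt
      exact ContinuousAt.comp (f := fun z => ψ (f z)) h1
        (ContinuousAt.comp (ψ.continuousAt hzt) (hfc z₁))
    have hL0 : L z₁ ≠ 0 := by
      intro h0
      apply hdg
      rw [dif_eq_dV, dV_eq_chart hzt hg]
      simp only [← hψ]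
      rw [show fderiv ℂ (g ∘ ψ.symm) (ψ (f z₁)) = 0 from h0]
      ext; simp
    obtain ⟨u, hu⟩ : ∃ u, L z₁ u ≠ 0 := by
      by_contra hcon
      push Not at hcon
      exact hL0 (ContinuousLinearMap.ext hcon)
    -- the composition
    have hcomp : ∀ᶠ z in 𝓝 z₁, (L z).comp (A z) =
        e' z ^ κ • fderiv ℂ (w ∘ φ.symm) (φ z) +
          w z • ((κ : ℂ) * e' z ^ (κ - 1)) • fderiv ℂ (e' ∘ φ.symm) (φ z) := by
      have hge : ∀ᶠ z in 𝓝 z₁, HolV E' g (f z) := (hfc z₁).eventually hg.eventually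
      filter_upwards [hge, he'.eventually, hw.eventually, eventually_eventually_nhds.2 heq,
        hfe, φ.open_source.mem_nhds hzs, hFz.eventually] with z h1 h2 h3 h4 h5 h6 h7
      have hz1 : DifferentiableAt ℂ (g ∘ ψ.symm) (ψ (f z)) :=
        (h1.rep h5).differentiableAt (by simp)
      have hz2 : DifferentiableAt ℂ (F ∘ φ.symm) (φ z) := (h7.rep h6).differentiableAt (by simp)
      have hFv : (F ∘ φ.symm) (φ z) = ψ (f z) := by
        simp only [Function.comp_apply, φ.left_inv h6]; rfl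
      have hc1 : (L z).comp (A z) = fderiv ℂ ((g ∘ ψ.symm) ∘ (F ∘ φ.symm)) (φ z) := by
        rw [fderiv_comp _ (by rw [hFv]; exact hz1) hz2, hFv]
      have hsy : Tendsto φ.symm (𝓝 (φ z)) (𝓝 z) := by
        have := (φ.continuousAt_symm (φ.map_source h6)).tendsto
        rwa [φ.left_inv h6] at this
      have hc2 : ((g ∘ ψ.symm) ∘ (F ∘ φ.symm)) =ᶠ[𝓝 (φ z)]
          fun y => (e' ∘ φ.symm) y ^ κ * (w ∘ φ.symm) y := by
        have h8 : ∀ᶠ z in 𝓝 z, f z ∈ ψ.source := (hfc z).eventually (ψ.open_source.mem_nhds h5)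
        filter_upwards [hsy.eventually h4, hsy.eventually h8] with y hy hy'
        simp only [Function.comp_apply]
        rw [← hy]
        show g (ψ.symm (ψ (f (φ.symm y)))) = _
        rw [ψ.left_inv hy']
      rw [hc1, hc2.fderiv_eq]
      have hz3 : DifferentiableAt ℂ (e' ∘ φ.symm) (φ z) := (h2.rep h6).differentiableAt (by simp)
      have hz4 : DifferentiableAt ℂ (w ∘ φ.symm) (φ z) := (h3.rep h6).differentiableAt (by simp)
      have hz5 : DifferentiableAt ℂ (fun y => (e' ∘ φ.symm) y ^ κ) (φ z) := hz3.pow κ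
      rw [fderiv_fun_mul hz5 hz4, fderiv_fun_pow κ hz3]
      simp only [Function.comp_apply, φ.left_inv h6]
      simp [nsmul_eq_mul]
    -- bounded quantities
    have hev : ∀ {W : Type} [NormedAddCommGroup W] (h : X → W), ContinuousAt h z₁ →
        ∃ C : ℝ, 0 ≤ C ∧ ∀ᶠ z in 𝓝 z₁, ‖h z‖ ≤ C := by
      intro W _ h hh
      refine ⟨‖h z₁‖ + 1, by positivity, ?_⟩
      filter_upwards [hh.norm.eventually_lt_const (lt_add_one ‖h z₁‖)] with z hz using hz.le
    have hchc : ContinuousAt φ z₁ := φ.continuousAt hzs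
    obtain ⟨C1, hC1, hb1⟩ := hev (fun z => fderiv ℂ (w ∘ φ.symm) (φ z))
      (ContinuousAt.comp ((hw.rep hzs).fderiv_right (m := ω) (by simp)).continuousAt hchc)
    obtain ⟨C2, hC2, hb2⟩ := hev (fun z => fderiv ℂ (e' ∘ φ.symm) (φ z))
      (ContinuousAt.comp ((he'.rep hzs).fderiv_right (m := ω) (by simp)).continuousAt hchc)
    obtain ⟨C3, hC3, hb3⟩ := hev w hw.continuousAt
    obtain ⟨C4, hC4, hb4⟩ := hev e' he'.continuousAt
    obtain ⟨C5, hC5, hb5⟩ := hev (fun z => e.symm (adj (M z) (u, 0)))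
      (e.symm.continuous.continuousAt.comp
        ((hadj.continuousAt.comp hMz.continuousAt).clm_apply continuousAt_const))
    have hLu : ∀ᶠ z in 𝓝 z₁, ‖L z₁ u‖ / 2 < ‖L z u‖ :=
      ((hLc.clm_apply continuousAt_const).norm).eventually_const_lt (by
        have := norm_pos_iff.2 hu
        linarith)
    have hpos : 0 < ‖L z₁ u‖ / 2 := by
      have := norm_pos_iff.2 hu
      linarith
    refine ⟨((C4 * C1 + C3 * (κ * C2)) * C5) / (‖L z₁ u‖ / 2), ?_⟩
    filter_upwards [hcomp, hb1, hb2, hb3, hb4, hb5, hLu] with z hc h1 h2 h3 h4 h5 h6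
    have hdet : (M z).det * L z u = ((L z).comp (A z)) (e.symm (adj (M z) (u, 0))) := by
      have h7 := hadjv (M z) (u, 0)
      have h8 : (A z) (e.symm (adj (M z) (u, 0))) = (M z).det • u := (Prod.mk.inj h7).1
      rw [ContinuousLinearMap.comp_apply, h8, map_smul, smul_eq_mul]
    have hn : ‖(L z).comp (A z)‖ ≤ ‖e' z‖ ^ (κ - 1) * (C4 * C1 + C3 * (κ * C2)) := by
      rw [hc]
      refine (norm_add_le _ _).trans ?_
      rw [norm_smul, norm_smul, norm_smul, norm_pow, norm_mul, norm_pow, Complex.norm_natCast]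
      have hp : ‖e' z‖ ^ κ = ‖e' z‖ ^ (κ - 1) * ‖e' z‖ := by
        rw [← pow_succ, Nat.sub_add_cancel hκ]
      rw [hp]
      have hq : 0 ≤ ‖e' z‖ ^ (κ - 1) := by positivity
      calc ‖e' z‖ ^ (κ - 1) * ‖e' z‖ * ‖fderiv ℂ (w ∘ φ.symm) (φ z)‖ +
            ‖w z‖ * ((κ : ℝ) * ‖e' z‖ ^ (κ - 1) * ‖fderiv ℂ (e' ∘ φ.symm) (φ z)‖)
          = ‖e' z‖ ^ (κ - 1) * (‖e' z‖ * ‖fderiv ℂ (w ∘ φ.symm) (φ z)‖ +
            ‖w z‖ * ((κ : ℝ) * ‖fderiv ℂ (e' ∘ φ.symm) (φ z)‖)) := by ring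
        _ ≤ ‖e' z‖ ^ (κ - 1) * (C4 * C1 + C3 * (κ * C2)) := by
          gcongr
    have h9 : ‖(M z).det‖ * (‖L z₁ u‖ / 2) ≤
        ‖e' z‖ ^ (κ - 1) * (C4 * C1 + C3 * (κ * C2)) * C5 := by
      calc ‖(M z).det‖ * (‖L z₁ u‖ / 2) ≤ ‖(M z).det‖ * ‖L z u‖ := by gcongr
        _ = ‖((L z).comp (A z)) (e.symm (adj (M z) (u, 0)))‖ := by rw [← norm_mul, hdet]
        _ ≤ ‖(L z).comp (A z)‖ * ‖e.symm (adj (M z) (u, 0))‖ :=
          ContinuousLinearMap.le_opNorm _ _
        _ ≤ ‖e' z‖ ^ (κ - 1) * (C4 * C1 + C3 * (κ * C2)) * C5 := by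
          gcongr
    rw [div_mul_eq_mul_div, le_div_iff₀ hpos]
    calc ‖(M z).det‖ * (‖L z₁ u‖ / 2) ≤ _ := h9
      _ = (C4 * C1 + C3 * (κ * C2)) * C5 * ‖e' z‖ ^ (κ - 1) := by ring

end Fr

end Vale.Agent.P281.MF
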