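import Vale.Agent.P281.MF.Div

open scoped Manifold ContDiff Topology
open Set Filter Metric

namespace Vale.Agent.P281.MF

open Vale.Agent.P281

set_option linter.unusedSectionVars false

section Lin

variable {E E' V : Type} [NormedAddCommGroup E] [NormedSpace ℂ E] [FiniteDimensional ℂ E]
  [NormedAddCommGroup E'] [NormedSpace ℂ E'] [FiniteDimensional ℂ E']
  [NormedAddCommGroup V] [NormedSpace ℂ V] [FiniteDimensional ℂ V]

theorem det_id_add {t : V →L[ℂ] E} {Q : E →L[ℂ] V} (h : ∀ v, Q (t v) = 0) :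
    (ContinuousLinearMap.id ℂ E + t.comp Q).det = 1 := by
  classical
  let b := Module.finBasis ℂ E
  let c := Module.finBasis ℂ V
  have h1 : (ContinuousLinearMap.id ℂ E + t.comp Q).det =
      LinearMap.det ((LinearMap.id : E →ₗ[ℂ] E) + (t : V →ₗ[ℂ] E) ∘ₗ (Q : E →ₗ[ℂ] V)) := rfl
  have h2 : (Q : E →ₗ[ℂ] V) ∘ₗ (t : V →ₗ[ℂ] E) = 0 := by
    ext v; exact h v
  rw [h1, ← LinearMap.det_toMatrix b, map_add, LinearMap.toMatrix_id,
    LinearMap.toMatrix_comp b c b, Matrix.det_one_add_mul_comm, ← LinearMap.toMatrix_comp c b c,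
    h2, map_zero, add_zero, Matrix.det_one]

/-- `det (A, P)` -/
noncomputable def JP (e : E ≃L[ℂ] (E' × V)) (A : E →L[ℂ] E') (P : E →L[ℂ] V) : ℂ :=
  ((A.prod P).comp (e.symm : (E' × V) →L[ℂ] E)).det

variable (e : E ≃L[ℂ] (E' × V))

theorem JP_comp (A : E →L[ℂ] E') (P : E →L[ℂ] V) (R : E →L[ℂ] E) :
    JP e (A.comp R) (P.comp R) = JP e A P * R.det := by
  unfold JP
  have h1 : ((A.comp R).prod (P.comp R)).comp (e.symm : (E' × V) →L[ℂ] E) =
      ((A.prod P).comp (e.symm : (E' × V) →L[ℂ] E)).comp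
        (((e : E →L[ℂ] (E' × V)).comp R).comp (e.symm : (E' × V) →L[ℂ] E)) := by
    ext w <;> simp
  rw [h1, clm_det_comp]
  congr 1
  exact LinearMap.det_conj (R : E →ₗ[ℂ] E) e.toLinearEquiv

theorem JP_left (A : E →L[ℂ] E') (P : E →L[ℂ] V) (S : E' →L[ℂ] E') (R : V →L[ℂ] V) :
    JP e (S.comp A) (R.comp P) = S.det * R.det * JP e A P := by
  unfold JP
  have h1 : ((S.comp A).prod (R.comp P)).comp (e.symm : (E' × V) →L[ℂ] E) =
      (S.prodMap R).comp ((A.prod P).comp (e.symm : (E' × V) →L[ℂ] E)) := by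
    ext w <;> simp
  rw [h1, clm_det_comp]
  congr 1
  have : (S.prodMap R).det = LinearMap.det (LinearMap.prodMap
    (S : E' →ₗ[ℂ] E') (R : V →ₗ[ℂ] V)) := rfl
  rw [this, LinearMap.det_prodMap]

theorem JP_indep {A : E →L[ℂ] E'} {P P' : E →L[ℂ] V} {t : V →L[ℂ] E} (hA : ∀ v, A (t v) = 0)
    (hP : ∀ v, P (t v) = v) (hP' : ∀ v, P' (t v) = v) : JP e A P' = JP e A P := by
  have h1 := JP_comp e A P (ContinuousLinearMap.id ℂ E + t.comp (P' - P))
  rw [det_id_add (fun v => by simp [hP, hP']), mul_one] at h1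
  rw [← h1]
  congr 1
  · ext x; simp [hA]
  · ext x; simp [hP]

theorem JP_frame {A : E →L[ℂ] E'} {P P' : E →L[ℂ] V} {t t' : V →L[ℂ] E} (hA : ∀ v, A (t v) = 0)
    (hP : ∀ v, P (t v) = v) (hP' : ∀ v, P' (t' v) = v) {B : V →ₗ[ℂ] V}
    (hB : ∀ v, t' v = t (B v)) : JP e A P = LinearMap.det B * JP e A P' := by
  set B' : V →L[ℂ] V := LinearMap.toContinuousLinearMap B with hB'
  have h1 : ((P'.comp t : V →L[ℂ] V) : V →ₗ[ℂ] V) * B = 1 := by
    ext v
    simp only [Module.End.mul_apply, Module.End.one_apply, ContinuousLinearMap.coe_coe,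
      ContinuousLinearMap.comp_apply]
    rw [← hB, hP']
  have h2 : B * ((P'.comp t : V →L[ℂ] V) : V →ₗ[ℂ] V) = 1 := mul_eq_one_comm.1 h1
  have h3 : ∀ v, (B'.comp P') (t v) = v := fun v => by
    have := LinearMap.congr_fun h2 v
    exact this
  rw [← JP_indep e hA hP h3]
  have h4 := JP_left e A P' (ContinuousLinearMap.id ℂ E') B'
  have h5 : (ContinuousLinearMap.id ℂ E').det = 1 := by simp [ContinuousLinearMap.det]
  rw [h5, one_mul] at h4
  rw [show (ContinuousLinearMap.id ℂ E').comp A = A by ext x; rfl] at h4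
  rw [h4]
  rfl

theorem JP_ne_zero {A : E →L[ℂ] E'} {P : E →L[ℂ] V} {t : V →L[ℂ] E} (hA : ∀ v, A (t v) = 0)
    (hP : ∀ v, P (t v) = v) (hs : Function.Surjective A) : JP e A P ≠ 0 := by
  have h1 : Function.Surjective ((A.prod P).comp (e.symm : (E' × V) →L[ℂ] E)) := by
    rintro ⟨a, v⟩
    obtain ⟨x, rfl⟩ := hs a
    refine ⟨e (x + t (v - P x)), ?_⟩
    simp [hA, hP]
  have h2 : LinearMap.range (((A.prod P).comp (e.symm : (E' × V) →L[ℂ] E) :
      (E' × V) →L[ℂ] (E' × V)) : (E' × V) →ₗ[ℂ] (E' × V)) = ⊤ := LinearMap.range_eq_top.2 h1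
  have h3 := (LinearMap.isUnit_iff_range_eq_top _).2 h2
  exact (LinearMap.isUnit_det _ h3).ne_zero

/-- continuous adjugate -/
theorem exists_adj (W : Type*) [NormedAddCommGroup W] [NormedSpace ℂ W] [FiniteDimensional ℂ W] :
    ∃ adj : (W →L[ℂ] W) → (W →L[ℂ] W), Continuous adj ∧
      ∀ (B : W →L[ℂ] W) (w : W), B (adj B w) = B.det • w := by
  classical
  let b := Module.finBasis ℂ W
  let T : (W →L[ℂ] W) →ₗ[ℂ] Matrix (Fin (Module.finrank ℂ W)) (Fin (Module.finrank ℂ W)) ℂ :=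
    { toFun := fun A => LinearMap.toMatrix b b (A : W →ₗ[ℂ] W)
      map_add' := by intro A B; simp only [ContinuousLinearMap.toLinearMap_add, map_add]
      map_smul' := by intro c A; simp }
  let S : Matrix (Fin (Module.finrank ℂ W)) (Fin (Module.finrank ℂ W)) ℂ →ₗ[ℂ] (W →L[ℂ] W) :=
    (LinearMap.toContinuousLinearMap : (W →ₗ[ℂ] W) ≃ₗ[ℂ] (W →L[ℂ] W)).toLinearMap ∘ₗ
      (Matrix.toLin b b).toLinearMap
  have hT : Continuous T := LinearMap.continuous_of_finiteDimensional T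
  have hS : Continuous S := LinearMap.continuous_of_finiteDimensional S
  refine ⟨fun B => S (T B).adjugate, hS.comp (hT.matrix_adjugate), fun B w => ?_⟩
  have h1 : (B : W →ₗ[ℂ] W) = Matrix.toLin b b (T B) := (Matrix.toLin_toMatrix b b _).symm
  have h2 : (B : W →ₗ[ℂ] W) ∘ₗ (Matrix.toLin b b (T B).adjugate) =
      B.det • LinearMap.id := by
    rw [h1, ← Matrix.toLin_mul, Matrix.mul_adjugate, map_smul, Matrix.toLin_one]
    congr 1
    exact LinearMap.det_toMatrix b _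
  exact LinearMap.congr_fun h2 w

/-- left inverses of injective maps -/
theorem exists_left_inv {t : V →L[ℂ] E} (ht : Function.Injective t) :
    ∃ P : E →L[ℂ] V, ∀ v, P (t v) = v := by
  obtain ⟨g, hg⟩ := LinearMap.exists_leftInverse_of_injective (t : V →ₗ[ℂ] E)
    (LinearMap.ker_eq_bot.2 ht)
  exact ⟨LinearMap.toContinuousLinearMap g, fun v => LinearMap.congr_fun hg v⟩

end Lin

end Vale.Agent.P281.MF
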