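import Vale.Agent.P281.MF.Defs
import Vale.Agent.P281.MF.Est
import Vale.Agent.P281.MF.FibreZero
import Vale.Agent.P281.MF.Up

open scoped Manifold ContDiff Topology
open Set Filter Metric

namespace Vale.Agent.P281.MF

open Vale.Agent.P281

set_option linter.unusedSectionVars false

universe u

section Main

variable {E E' E₀ V : Type} [NormedAddCommGroup E] [NormedSpace ℂ E] [FiniteDimensional ℂ E]
  [NormedAddCommGroup E'] [NormedSpace ℂ E'] [FiniteDimensional ℂ E']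
  [NormedAddCommGroup E₀] [NormedSpace ℂ E₀] [FiniteDimensional ℂ E₀]
  [NormedAddCommGroup V] [NormedSpace ℂ V] [FiniteDimensional ℂ V]
variable {X Y F : Type u} [TopologicalSpace X] [ChartedSpace E X] [IsManifold 𝓘(ℂ, E) ω X]
  [TopologicalSpace Y] [ChartedSpace E' Y] [IsManifold 𝓘(ℂ, E') ω Y]
  [TopologicalSpace F] [ChartedSpace E₀ F] [IsManifold 𝓘(ℂ, E₀) ω F]
variable {f : X → Y} {N : ℕ} {ι : Type u} {U : ι → Set X} {τ : ι → X → V →L[ℂ] E}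

theorem frames_of (h : J.IsVerticalFrame E E' f N U τ) : Frames E E' f N U τ where
  cov := h.1
  isOpen := fun a => (h.2.1 a).1
  inj := fun a x hx => ((h.2.1 a).2 x hx).1
  ker := fun a x hx => ((h.2.1 a).2 x hx).2.1
  hol := fun a x hx => ((h.2.1 a).2 x hx).2.2
  trans := h.2.2

theorem Frames.isOpen_surj (hF : Frames E E' f N U τ) (e : E ≃L[ℂ] (E' × V))
    (hf : ∀ x, HolM E E' f x) : IsOpen {x | Function.Surjective (dM E E' f x)} := by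
  rw [isOpen_iff_mem_nhds]
  intro x hx
  obtain ⟨H, hH, -, hHs, -⟩ := hF.local_J e hf x
  have h0 : H x ≠ 0 := hHs.self_of_nhds.1 hx
  filter_upwards [hHs, hH.continuousAt.eventually_ne h0] with z hz hz0
  exact hz.2 hz0

theorem Frames.dense_surj [PreconnectedSpace X] (hF : Frames E E' f N U τ)
    (e : E ≃L[ℂ] (E' × V)) (hf : ∀ x, HolM E E' f x)
    (hne : ∃ x, Function.Surjective (dM E E' f x)) :
    Dense {x | Function.Surjective (dM E E' f x)} := by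
  refine dense_of_local (E := E) hne fun x => ?_
  obtain ⟨H, hH, -, hHs, -⟩ := hF.local_J e hf x
  exact ⟨H, hH, hHs⟩

theorem Frames.JJ_ne_zero (hF : Frames E E' f N U τ) (e : E ≃L[ℂ] (E' × V))
    (hf : ∀ x, HolM E E' f x) {x : X} (hx : Function.Surjective (dM E E' f x)) :
    JJ e f N U τ x ≠ 0 := by
  obtain ⟨H, hH, hHJ, hHs, -⟩ := hF.local_J e hf x
  have h0 : H x ≠ 0 := hHs.self_of_nhds.1 hx
  have h1 := hHJ.self_of_nhds
  intro h2
  rw [h2, mul_zero] at h1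
  exact pow_ne_zero N (mul_ne_zero h0 (jac_chart_ne_zero (mem_chart_source E x))) h1.symm

theorem kappa_pos {G : Set Y} {κ : ℕ} (hsurj : Function.Surjective f)
    (hG : IsPrimeDivisor E' G) (h : ∀ x ∈ f ⁻¹' G, ∃ e g w, IsLocalEq E (f ⁻¹' G) e x ∧
      IsLocalEq E' G g (f x) ∧ HolAt E w x ∧ w x ≠ 0 ∧
      ∀ᶠ z in 𝓝 x, g (f z) = e z ^ κ * w z) : 0 < κ := by
  obtain ⟨y, hy⟩ := hG.2.2.1
  obtain ⟨x, rfl⟩ := hsurj y
  obtain ⟨e, g, w, he, hg, hw, hw0, heq⟩ := h x hy.1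
  rcases Nat.eq_zero_or_pos κ with h0 | h0
  · exfalso
    have h1 := heq.self_of_nhds
    rw [hg.mem_iff.1 hy.1, h0, pow_zero, one_mul] at h1
    exact hw0 h1.symm
  · exact h0

/-- `κ(X, K_X + Δ) ≥ κ(Y, K_Y + B(f, Δ))`. -/
theorem kod_base_le [ConnectedSpace X] (hE : Module.finrank ℂ E = Module.finrank ℂ E' +
      Module.finrank ℂ V) (hN : 0 < N) (hF : Frames E E' f N U τ)
    (hf : ∀ x, HolM E E' f x) (hsurj : Function.Surjective f)
    (hne : ∃ x, Function.Surjective (dM E E' f x))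
    (hmult : ∀ G : Set Y, IsPrimeDivisor E' G → ∃ κ : ℕ, IsPrimeDivisor E (f ⁻¹' G) ∧
      ∀ x ∈ f ⁻¹' G, ∃ e g w, IsLocalEq E (f ⁻¹' G) e x ∧
      IsLocalEq E' G g (f x) ∧ HolAt E w x ∧ w x ≠ 0 ∧
      ∀ᶠ z in 𝓝 x, g (f z) = e z ^ κ * w z)
    {Δ : Set X → ℝ} (hsnc : IsSNCBoundary E Δ) :
    kod E' (fun (G : Set Y) z g => IsLocalEq E' G g z) (orbBase E E' f Δ) ≤
      kod E (fun (D : Set X) z g => IsLocalEq E D g z) Δ := by
  classical
  let e₀ : E ≃L[ℂ] (E' × V) := ContinuousLinearEquiv.ofFinrankEq (by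
    rw [hE, Module.finrank_prod])
  have hmult' : ∀ G : Set Y, ∃ κ : ℕ, IsPrimeDivisor E' G → IsPrimeDivisor E (f ⁻¹' G) ∧
      ∀ x ∈ f ⁻¹' G, ∃ e g w, IsLocalEq E (f ⁻¹' G) e x ∧
      IsLocalEq E' G g (f x) ∧ HolAt E w x ∧ w x ≠ 0 ∧
      ∀ᶠ z in 𝓝 x, g (f z) = e z ^ κ * w z := by
    intro G
    by_cases hG : IsPrimeDivisor E' G
    · obtain ⟨κ, h⟩ := hmult G hG
      exact ⟨κ, fun _ => h⟩
    · exact ⟨0, fun h => absurd h hG⟩
  choose κ hκ using hmult'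
  have hκ0 : ∀ G, IsPrimeDivisor E' G → 0 < κ G := fun G hG =>
    kappa_pos hsurj hG (hκ G hG).2
  obtain ⟨q₀, hq₀, K₁, hK₁, -⟩ := exists_denominator hsnc
  have hB : ∀ G, orbBase E E' f Δ G ≠ 0 → IsPrimeDivisor E' G := by
    intro G hG
    by_contra h
    exact hG (by unfold orbBase; rw [if_neg h])
  unfold kod
  refine iSup₂_le fun j hj => ?_
  refine le_iSup₂_of_le j ?_ le_rfl
  refine kodGE_up hf hsurj (hF.dense_surj e₀ hf hne) (hF.isOpen_surj e₀ hf) hsnc.finite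
    hsnc.prime hB (q := N * q₀) (Nat.mul_pos hN hq₀) (K₀ := fun D => N * K₁ D) (fun D => by
      push_cast; rw [hK₁ D]; ring) (Jf := fun z => JJ e₀ f N U τ z ^ q₀)
      (fun z hz => pow_ne_zero _ (hF.JJ_ne_zero e₀ hf hz)) ?_ hj
  intro m k t hm hk ht
  have hmq : m * (N * q₀) = N * (m * q₀) := by ring
  have hkp : ∀ G, k G ≠ 0 → IsPrimeDivisor E' G := by
    intro G hG
    refine hB G fun h0 => hG ?_
    have h1 := hk G
    rw [h0, mul_zero] at h1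
    exact_mod_cast h1
  have hΔ01 : ∀ D, 0 ≤ Δ D ∧ Δ D ≤ 1 := by
    intro D
    obtain ⟨q, h1, h2, h3⟩ := hsnc.rational D
    rw [h1]
    exact ⟨by exact_mod_cast h2, by exact_mod_cast h3⟩
  have hKD : ∀ D, m * (N * K₁ D) ≠ 0 → Δ D ≠ 0 := by
    intro D hD h0
    apply hD
    have h1 := hK₁ D
    rw [h0, mul_zero] at h1
    have h2 : K₁ D = 0 := by exact_mod_cast h1
    rw [h2]; simp
  have hexp : ∀ G, k G ≠ 0 →
      κ G * k G ≤ (N * (m * q₀)) * (κ G - 1) + m * (N * K₁ (f ⁻¹' G)) := by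
    intro G hG
    have hGp := hkp G hG
    obtain ⟨hpre, hx⟩ := hκ G hGp
    have h1 : 0 < κ G := hκ0 G hGp
    obtain ⟨y, hy⟩ := hGp.2.2.1
    obtain ⟨x, rfl⟩ := hsurj y
    have h2 := orbBase_mul_le hsurj (Δ := Δ) h1 hGp hpre ⟨x, hy.1, hx x hy.1⟩
      (hΔ01 _).1 (hΔ01 _).2
    have h3 : ((κ G * k G : ℕ) : ℝ) ≤
        (((N * (m * q₀)) * (κ G - 1) + m * (N * K₁ (f ⁻¹' G)) : ℕ) : ℝ) := by
      push_cast [Nat.cast_sub h1]
      rw [hk G, hK₁]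
      push_cast
      have h4 : (0 : ℝ) ≤ m * (N * q₀) := by positivity
      calc (κ G : ℝ) * (m * (N * q₀) * orbBase E E' f Δ G)
          = m * (N * q₀) * (κ G * orbBase E E' f Δ G) := by ring
        _ ≤ m * (N * q₀) * (κ G - 1 + Δ (f ⁻¹' G)) := by gcongr
        _ = N * (m * q₀) * (κ G - 1) + m * (N * (q₀ * Δ (f ⁻¹' G))) := by ring
    exact_mod_cast h3
  have ht' : IsSection E' (fun (G : Set Y) z g => IsLocalEq E' G g z) (N * (m * q₀)) k t := by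
    rw [← hmq]; exact ht
  obtain ⟨σ, hσ, hσe⟩ := section_up hF e₀ hf hsurj (fun G hG => (hκ G hG).1)
    (fun G hG => ⟨hκ0 G hG, (hκ G hG).2⟩) (K := fun D => m * (N * K₁ D))
    (hsnc.finite.subset fun D hD => hKD D hD) (fun D hD => hsnc.prime D (hKD D hD)) hkp
    (p := m * q₀) hexp ht'
  refine ⟨σ, ?_, fun z hz => ?_⟩
  · rw [hmq]; exact hσ
  · rw [hσe z hz, ← pow_mul, mul_comm q₀ m]

theorem main [CompactSpace X] [T2Space X] [ConnectedSpace X] [T2Space Y]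
    (hE : Module.finrank ℂ E = Module.finrank ℂ E' + Module.finrank ℂ V)
    (hE₀ : Module.finrank ℂ E₀ = Module.finrank ℂ V)
    (f : X → Y) (hf : ContMDiff 𝓘(ℂ, E) 𝓘(ℂ, E') ω f) (hfib : ∀ y, IsConnected (f ⁻¹' {y}))
    (N : ℕ) (hN : 0 < N) {ι : Type u} (U : ι → Set X) (τ : ι → X → V →L[ℂ] E)
    (hτ : J.IsVerticalFrame E E' f N U τ)
    (hmult : ∀ G : Set Y, J.IsPrime E' G → ∃ κ : ℕ, J.IsMultiple E E' f G κ)
    (Δ : Set X → ℝ) (hsnc : J.IsSNC E Δ) (hΔ : ∀ D, Δ D ≠ 0 → ∃ G : Set Y, D = f ⁻¹' G)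
    (y : Y) (hy : ∀ x, f x = y → Function.Surjective (mfderiv 𝓘(ℂ, E) 𝓘(ℂ, E') f x))
    (i : F → X) (hi : ContMDiff 𝓘(ℂ, E₀) 𝓘(ℂ, E) ω i)
    (hi₁ : Topology.IsEmbedding i) (hi₂ : Set.range i = f ⁻¹' {y})
    (hi₃ : ∀ p, Function.Injective (mfderiv 𝓘(ℂ, E₀) 𝓘(ℂ, E) i p)) :
    J.kod E₀ (fun (D : Set X) p g => ∃ e, J.IsLocalEq E D e (i p) ∧ ∀ᶠ q in 𝓝 p, g q = e (i q)) Δ +
      J.kod E' (fun (G : Set Y) z g => J.IsLocalEq E' G g z) (J.orbBase E E' f Δ) ≤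
      J.kod E (fun (D : Set X) z g => J.IsLocalEq E D g z) Δ := by
  have hF := frames_of hτ
  have hsurj : Function.Surjective f := fun y => (hfib y).nonempty
  rw [JB.kod_eq, JB.kod_eq, JB.kod_eq, JB.orbBase_eq]
  have h1 : kod E₀ (fun (D : Set X) p g => ∃ e, IsLocalEq E D e (i p) ∧
      ∀ᶠ q in 𝓝 p, g q = e (i q)) Δ ≤ 0 := by
    unfold kod
    refine iSup₂_le fun j hj => ?_
    have hj0 : j = 0 := kodF_zero hE hE₀ (fun x => hf x) hN hF.cov hF.isOpen hF.inj hF.ker hF.hol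
      hF.trans (hfib y) hy (fun p => hi p) hi₁ hi₂ hi₃ hΔ hj
    subst hj0
    exact le_rfl
  obtain ⟨x₁, hx₁⟩ := hsurj y
  have h2 := kod_base_le hE hN hF (fun x => hf x) hsurj ⟨x₁, hy x₁ hx₁⟩ hmult (JB.snc hsnc)
  calc _ ≤ 0 + kod E' (fun (G : Set Y) z g => IsLocalEq E' G g z) (orbBase E E' f Δ) :=
        add_le_add_left h1 _
    _ = kod E' (fun (G : Set Y) z g => IsLocalEq E' G g z) (orbBase E E' f Δ) := zero_add _
    _ ≤ _ := h2

end Main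

end Vale.Agent.P281.MF
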