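import Vale.Agent.P281.MF.Fr

open scoped Manifold ContDiff Topology ENNReal
open Set Filter Metric

namespace Vale.Agent.P281.MF

open Vale.Agent.P281

set_option linter.unusedSectionVars false

universe u

section Orb

variable {E E' : Type} [NormedAddCommGroup E] [NormedSpace ℂ E] [FiniteDimensional ℂ E]
  [NormedAddCommGroup E'] [NormedSpace ℂ E'] [FiniteDimensional ℂ E']
variable {X Y : Type u} [TopologicalSpace X] [ChartedSpace E X] [IsManifold 𝓘(ℂ, E) ω X]
  [TopologicalSpace Y] [ChartedSpace E' Y] [IsManifold 𝓘(ℂ, E') ω Y]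
variable {f : X → Y}

theorem orbBase_mul_le (hsurj : Function.Surjective f) {Δ : Set X → ℝ} {G : Set Y} {κ : ℕ}
    (hκ : 0 < κ) (hG : IsPrimeDivisor E' G) (hD : IsPrimeDivisor E (f ⁻¹' G))
    (hx : ∃ x ∈ f ⁻¹' G, ∃ e g w, IsLocalEq E (f ⁻¹' G) e x ∧ IsLocalEq E' G g (f x) ∧
      HolAt E w x ∧ w x ≠ 0 ∧ ∀ᶠ z in 𝓝 x, g (f z) = e z ^ κ * w z)
    (h0 : 0 ≤ Δ (f ⁻¹' G)) (h1 : Δ (f ⁻¹' G) ≤ 1) :
    κ * orbBase E E' f Δ G ≤ κ - 1 + Δ (f ⁻¹' G) := by
  have hκ0 : (0 : ℝ) < κ := by exact_mod_cast hκ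
  have hle : orbMult E E' f Δ G ≤ κ * mult Δ (f ⁻¹' G) := by
    unfold orbMult
    refine (iInf_le _ (f ⁻¹' G)).trans ((iInf_le _ ⟨hD, image_preimage_eq G hsurj⟩).trans ?_)
    have h2 : ordAlong E E' f G (f ⁻¹' G) ≤ κ := Nat.sInf_le hx
    gcongr
  set δ := Δ (f ⁻¹' G) with hδ
  have hinv : (κ * mult Δ (f ⁻¹' G))⁻¹ ≤ (orbMult E E' f Δ G)⁻¹ := ENNReal.inv_le_inv.2 hle
  have h3 : ((κ : ℝ≥0∞) * mult Δ (f ⁻¹' G))⁻¹ = ENNReal.ofReal ((1 - δ) / κ) := by
    rw [ENNReal.mul_inv (Or.inl (by exact_mod_cast hκ.ne')) (Or.inl (ENNReal.natCast_ne_top κ))]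
    unfold mult
    rw [inv_inv, ← hδ, ← ENNReal.ofReal_one, ← ENNReal.ofReal_sub _ h0, div_eq_inv_mul,
      ENNReal.ofReal_mul (by positivity), ENNReal.ofReal_inv_of_pos hκ0, ENNReal.ofReal_natCast]
  have h4 : (1 - (orbMult E E' f Δ G)⁻¹) ≤ ENNReal.ofReal (1 - (1 - δ) / κ) := by
    calc (1 - (orbMult E E' f Δ G)⁻¹) ≤ 1 - (κ * mult Δ (f ⁻¹' G))⁻¹ := tsub_le_tsub_left hinv 1
      _ = ENNReal.ofReal (1 - (1 - δ) / κ) := by
        rw [h3, ← ENNReal.ofReal_one, ← ENNReal.ofReal_sub]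
        exact div_nonneg (by linarith) hκ0.le
  have h5 : (1 - δ) / κ ≤ 1 := by
    rw [div_le_one hκ0]
    have : (1 : ℝ) ≤ κ := by exact_mod_cast hκ
    linarith
  have h6 : orbBase E E' f Δ G ≤ 1 - (1 - δ) / κ := by
    unfold orbBase
    rw [if_pos hG]
    calc (1 - (orbMult E E' f Δ G)⁻¹).toReal ≤ (ENNReal.ofReal (1 - (1 - δ) / κ)).toReal :=
          ENNReal.toReal_mono ENNReal.ofReal_ne_top h4
      _ = 1 - (1 - δ) / κ := ENNReal.toReal_ofReal (by linarith)
  calc (κ : ℝ) * orbBase E E' f Δ G ≤ κ * (1 - (1 - δ) / κ) := by gcongr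
    _ = κ - 1 + δ := by field_simp; ring

/-- relatively open dense subsets of `D` -/
def ROD (D R : Set X) : Prop :=
  R ⊆ D ∧ D ⊆ closure R ∧ ∀ z ∈ R, ∀ᶠ w in 𝓝 z, w ∈ D → w ∈ R

theorem ROD.inter {D R R' : Set X} (h : ROD D R) (h' : ROD D R') : ROD D (R ∩ R') := by
  refine ⟨fun z hz => h.1 hz.1, ?_, fun z hz => ?_⟩
  · intro z hz
    rw [mem_closure_iff_nhds]
    intro O hO
    obtain ⟨O', hO'O, hO'o, hzO'⟩ := mem_nhds_iff.1 hO
    obtain ⟨z₁, hz₁O, hz₁R⟩ := mem_closure_iff_nhds.1 (h.2.1 hz) O' (hO'o.mem_nhds hzO')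
    obtain ⟨z₂, ⟨hz₂O, hz₂⟩, hz₂R⟩ := mem_closure_iff_nhds.1 (h'.2.1 (h.1 hz₁R)) _
      (inter_mem (hO'o.mem_nhds hz₁O) (h.2.2 z₁ hz₁R))
    exact ⟨z₂, hO'O hz₂O, hz₂ (h'.1 hz₂R), hz₂R⟩
  · filter_upwards [h.2.2 z hz.1, h'.2.2 z hz.2] with w hw hw' hwD
    exact ⟨hw hwD, hw' hwD⟩

theorem ROD_smooth (hf : ∀ x, HolM E E' f x) (hsurj : Function.Surjective f) {G : Set Y}
    (hG : IsPrimeDivisor E' G) (hD : IsPrimeDivisor E (f ⁻¹' G)) :
    ROD (f ⁻¹' G) {z | f z ∈ smoothLocus E' G} := by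
  have hfc : ∀ x, ContinuousAt f x := fun x => (hf x).continuousAt
  refine ⟨fun z hz => hz.1, ?_, ?_⟩
  · have h1 : f ⁻¹' G ⊆ closure (f ⁻¹' G \ {z | f z ∉ smoothLocus E' G}) := by
      refine dense_in_prime (W := E' →L[ℂ] ℂ) hD (fun x hx => ?_) ?_
      · obtain ⟨g, hg⟩ := hG.2.1 (f x)
        set ψ := chartAt E' (f x) with hψ
        have hs : f x ∈ ψ.source := mem_chart_source E' (f x)
        refine ⟨fun z => fderiv ℂ (g ∘ ψ.symm) (ψ (f z)), ?_, ?_⟩
        · refine HolV.comp (E' := E') (h := fun y => fderiv ℂ (g ∘ ψ.symm) (ψ y)) ?_ (hf x)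
          exact HolV.comp_contDiff (G := fderiv ℂ (g ∘ ψ.symm))
            ((hg.holAt.rep hs).fderiv_right (by simp)) (HolV.chart hs)
        · filter_upwards [(hfc x).eventually hg.eventually,
            (hfc x).eventually (ψ.open_source.mem_nhds hs)] with z hgz hzs hzD
          have h2 : f z ∈ smoothLocus E' G ↔ dif E' g (f z) ≠ 0 := by
            constructor
            · rintro ⟨h3, g', hg', hd'⟩
              exact leq_dif_ne hg' hgz h3 hd'
            · intro h3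
              exact ⟨hzD, g, hgz, h3⟩
          show f z ∉ smoothLocus E' G ↔ _
          rw [h2, not_not, dif_eq_dV, dV_eq_chart hzs hgz.holAt]
          simp only [← hψ]
          constructor
          · intro h0
            refine ContinuousLinearMap.ext fun v => ?_
            obtain ⟨u, rfl⟩ := chart_surj (E := E') hzs v
            exact congrArg (fun A : E' →L[ℂ] ℂ => A u) h0
          · intro h0
            rw [h0]; ext; simp
      · obtain ⟨y, hy⟩ := hG.2.2.1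
        obtain ⟨x, rfl⟩ := hsurj y
        exact ⟨x, hy.1, fun h => h hy⟩
    refine h1.trans (closure_mono fun z hz => ?_)
    by_contra hcon
    exact hz.2 hcon
  · rintro z ⟨hzG, g, hg, hd⟩
    have h1 : ∀ᶠ y in 𝓝 (f z), dif E' g y ≠ 0 := by
      have hs : f z ∈ (chartAt E' (f z)).source := mem_chart_source E' (f z)
      have h2 : ContinuousAt (fun y => fderiv ℂ (g ∘ (chartAt E' (f z)).symm)
          (chartAt E' (f z) y)) (f z) :=
        (HolV.comp_contDiff (G := fderiv ℂ (g ∘ (chartAt E' (f z)).symm))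
            ((hg.holAt.rep hs).fderiv_right (by simp)) (HolV.chart hs)).continuousAt
      have h3 : fderiv ℂ (g ∘ (chartAt E' (f z)).symm) (chartAt E' (f z) (f z)) ≠ 0 := by
        intro h0
        apply hd
        rw [dif_eq_dV, dV_eq_chart hs hg.holAt, h0]
        ext; simp
      filter_upwards [h2.eventually_ne h3, hg.eventually,
        (chartAt E' (f z)).open_source.mem_nhds hs] with y hy hgy hys
      intro h0
      apply hy
      rw [dif_eq_dV, dV_eq_chart hys hgy.holAt] at h0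
      refine ContinuousLinearMap.ext fun v => ?_
      obtain ⟨u, rfl⟩ := chart_surj (E := E') hys v
      exact congrArg (fun A : E' →L[ℂ] ℂ => A u) h0
    filter_upwards [(hfc z).eventually h1, (hfc z).eventually hg.eventually] with w hw hgw hwD
    exact ⟨hwD, g, hgw, hw⟩

theorem ROD_avoid (hf : ∀ x, HolM E E' f x) (hsurj : Function.Surjective f) {G G' : Set Y}
    (hG : IsPrimeDivisor E' G) (hG' : IsPrimeDivisor E' G') (hne : G' ≠ G)
    (hD : IsPrimeDivisor E (f ⁻¹' G)) : ROD (f ⁻¹' G) {z | f z ∈ G ∧ f z ∉ G'} := by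
  have hfc : ∀ x, ContinuousAt f x := fun x => (hf x).continuousAt
  refine ⟨fun z hz => hz.1, ?_, ?_⟩
  · have h1 : f ⁻¹' G ⊆ closure (f ⁻¹' G \ (f ⁻¹' G')) := by
      refine dense_in_prime (W := ℂ) hD (fun x _ => ?_) ?_
      · obtain ⟨g, hg⟩ := hG'.2.1 (f x)
        refine ⟨fun z => g (f z), HolV.comp hg.holAt (hf x), ?_⟩
        filter_upwards [(hfc x).eventually hg.eventually] with z hz _
        exact hz.mem_iff
      · by_contra hcon
        push Not at hcon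
        apply hne
        refine (prime_eq_of_subset hG hG' fun y hy => ?_).symm
        obtain ⟨x, rfl⟩ := hsurj y
        exact hcon x hy
    exact h1
  · rintro z ⟨-, hz⟩
    filter_upwards [(hfc z).eventually (hG'.1.isOpen_compl.mem_nhds hz)] with w hw hwD
    exact ⟨hwD, hw⟩

theorem ROD_good (hf : ∀ x, HolM E E' f x) (hsurj : Function.Surjective f) {G : Set Y}
    (hG : IsPrimeDivisor E' G) (hD : IsPrimeDivisor E (f ⁻¹' G)) {S : Set (Set Y)}
    (hS : S.Finite) (hSp : ∀ G' ∈ S, IsPrimeDivisor E' G') :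
    ROD (f ⁻¹' G) {z | f z ∈ smoothLocus E' G ∧ ∀ G' ∈ S, G' ≠ G → f z ∉ G'} := by
  induction S, hS using Set.Finite.induction_on with
  | empty => simpa using ROD_smooth hf hsurj hG hD
  | @insert a s ha hs ih =>
    have ih' := ih fun G' hG' => hSp G' (mem_insert_of_mem _ hG')
    by_cases hag : a = G
    · convert ih' using 1
      ext z
      simp only [mem_ofPred_eq, mem_insert_iff, forall_eq_or_imp]
      constructor
      · rintro ⟨h1, -, h2⟩
        exact ⟨h1, h2⟩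
      · rintro ⟨h1, h2⟩
        exact ⟨h1, fun h => absurd hag h, h2⟩
    · have h1 := ih'.inter (ROD_avoid hf hsurj hG (hSp a (mem_insert _ _)) hag hD)
      convert h1 using 1
      ext z
      simp only [mem_ofPred_eq, mem_insert_iff, forall_eq_or_imp, mem_inter_iff]
      constructor
      · rintro ⟨h1, h2, h3⟩
        exact ⟨⟨h1, h3⟩, h1.1, h2 hag⟩
      · rintro ⟨⟨h1, h3⟩, -, h2⟩
        exact ⟨h1, fun _ => h2, h3⟩

end Orb

end Vale.Agent.P281.MF
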